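import Vale.Agent.P073Z.STR.Box

/-!
# A PL arc leaves a box exactly once
-/

open Set Metric Topology Filter

namespace P073.STR

/-- levels near `1` are met exactly once -/
theorem unique_level {g : ℝ → ℝ} (hc : ContinuousOn g (Icc 0 1)) {τ ε a b : ℝ} (hε : 0 < ε)
    (h0 : 0 ≤ τ - ε) (h1 : τ + ε ≤ 1) (hlt : ∀ s ∈ Icc (0:ℝ) 1, s < τ → g s < 1)
    (hgt : ∀ s ∈ Icc (0:ℝ) 1, τ < s → 1 < g s)
    (hp : ∀ t ∈ Icc (0:ℝ) 1, g (τ + t * ε) = 1 + t * a)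
    (hm : ∀ t ∈ Icc (0:ℝ) 1, g (τ - t * ε) = 1 + t * b) :
    ∃ δ > (0:ℝ), ∀ t ∈ Ioo (1 - δ) (1 + δ), ∃ s ∈ Icc (0:ℝ) 1, g s = t ∧
      ∀ s' ∈ Icc (0:ℝ) 1, g s' = t → s' = s := by
  have ha : 0 < a := by
    have h2 := hp 1 ⟨zero_le_one, le_rfl⟩
    have h3 := hgt (τ + 1 * ε) ⟨by linarith, by linarith⟩ (by linarith)
    linarith
  have hb : b < 0 := by
    have h2 := hm 1 ⟨zero_le_one, le_rfl⟩
    have h3 := hlt (τ - 1 * ε) ⟨by linarith, by linarith⟩ (by linarith)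
    linarith
  have hp' : ∀ s, τ ≤ s → s ≤ τ + ε → g s = 1 + (s - τ) / ε * a := fun s h2 h3 => by
    have h4 := hp ((s - τ) / ε) ⟨div_nonneg (by linarith) hε.le, (div_le_one hε).2 (by linarith)⟩
    rwa [div_mul_cancel₀ _ hε.ne', add_sub_cancel] at h4
  have hm' : ∀ s, τ - ε ≤ s → s ≤ τ → g s = 1 + (τ - s) / ε * b := fun s h2 h3 => by
    have h4 := hm ((τ - s) / ε) ⟨div_nonneg (by linarith) hε.le, (div_le_one hε).2 (by linarith)⟩
    rwa [div_mul_cancel₀ _ hε.ne', sub_sub_cancel] at h4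
  have hmono : ∀ s s', τ - ε ≤ s → s < s' → s' ≤ τ + ε → g s < g s' := by
    intro s s' h2 h3 h4
    rcases le_or_gt s' τ with h5 | h5
    · rw [hm' s h2 (by linarith), hm' s' (by linarith) h5]
      have h6 : (τ - s') / ε < (τ - s) / ε := div_lt_div_of_pos_right (by linarith) hε
      nlinarith
    · rcases le_or_gt τ s with h6 | h6
      · rw [hp' s h6 (by linarith), hp' s' h5.le h4]
        have h7 : (s - τ) / ε < (s' - τ) / ε := div_lt_div_of_pos_right (by linarith) hε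
        nlinarith
      · exact (hlt s ⟨by linarith, by linarith⟩ h6).trans (hgt s' ⟨by linarith, by linarith⟩ h5)
  obtain ⟨u, hu, hu'⟩ := (isCompact_Icc (a := (0:ℝ)) (b := τ - ε)).exists_isMaxOn
    (nonempty_Icc.2 h0) (hc.mono (Icc_subset_Icc le_rfl (by linarith)))
  obtain ⟨w, hw, hw'⟩ := (isCompact_Icc (a := τ + ε) (b := (1:ℝ))).exists_isMinOn
    (nonempty_Icc.2 h1) (hc.mono (Icc_subset_Icc (by linarith) le_rfl))
  have hu1 : g u < 1 := hlt u ⟨hu.1, by linarith [hu.2]⟩ (by linarith [hu.2])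
  have hw1 : 1 < g w := hgt w ⟨by linarith [hw.1], hw.2⟩ (by linarith [hw.1])
  refine ⟨min (1 - g u) (g w - 1), lt_min (by linarith) (by linarith), fun t ht => ?_⟩
  have ht1 : g u < t := by linarith [ht.1, min_le_left (1 - g u) (g w - 1)]
  have ht2 : t < g w := by linarith [ht.2, min_le_right (1 - g u) (g w - 1)]
  have hin : ∀ s ∈ Icc (0:ℝ) 1, g s = t → τ - ε ≤ s ∧ s ≤ τ + ε := by
    intro s hs hst
    constructor
    · by_contra h2
      have h3 : g s ≤ g u := hu' ⟨hs.1, (not_le.1 h2).le⟩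
      linarith
    · by_contra h2
      have h3 : g w ≤ g s := hw' ⟨(not_le.1 h2).le, hs.2⟩
      linarith
  have h2 : g 0 ≤ g u := hu' ⟨le_rfl, h0⟩
  have h3 : g w ≤ g 1 := hw' ⟨h1, le_rfl⟩
  obtain ⟨s, hs, hst⟩ := intermediate_value_Icc zero_le_one hc
    (show t ∈ Icc (g 0) (g 1) from ⟨by linarith, by linarith⟩)
  refine ⟨s, hs, hst, fun s' hs' hst' => ?_⟩
  obtain ⟨h4, h5⟩ := hin s hs hst
  obtain ⟨h6, h7⟩ := hin s' hs' hst'
  rcases lt_trichotomy s' s with h8 | h8 | h8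
  · exact absurd (hmono s' s h6 h8 h5) (by rw [hst, hst']; exact lt_irrefl _)
  · exact h8
  · exact absurd (hmono s s' h4 h8 h7) (by rw [hst, hst']; exact lt_irrefl _)

theorem cross : CROSS := by
  intro x y c ψ h hh hψ hinj hx hy H
  have hxy : x ≠ y := by
    rintro rfl
    exact lt_irrefl _ (hx.trans hy)
  set γ : ℝ → E3 := fun τ => AffineMap.lineMap x y τ with hγ
  have hγm : ∀ τ ∈ Icc (0:ℝ) 1, γ τ ∈ segment ℝ x y := fun τ hτ => by
    rw [segment_eq_image_lineMap]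
    exact ⟨τ, hτ, rfl⟩
  have hγc : Continuous γ := AffineMap.lineMap_continuous
  have hγi : Function.Injective γ := AffineMap.lineMap_injective ℝ hxy
  have hγ0 : γ 0 = x := AffineMap.lineMap_apply_zero x y
  have hγ1 : γ 1 = y := AffineMap.lineMap_apply_one x y
  have hψγ : ContinuousOn (fun τ => ψ (γ τ)) (Icc 0 1) := hψ.1.comp hγc.continuousOn hγm
  have hG : PLOn (fun p => boxG h (ψ p - c)) (segment ℝ x y) :=
    A2.pl_comp_univ (plOn_boxG h) (A2.pl_sub hψ (A2.pl_const c (A2.pl_set hψ)))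
  set g : ℝ → ℝ := fun τ => boxG h (ψ (γ τ) - c) with hg
  have hgc : ContinuousOn g (Icc 0 1) := hG.1.comp hγc.continuousOn hγm
  have hg0 : g 0 < 1 := by
    simp only [hg, hγ0]
    exact hx
  have hg1 : 1 < g 1 := by
    simp only [hg, hγ1]
    exact hy
  -- once outside, always outside
  have key : ∀ s ∈ Icc (0:ℝ) 1, ∀ s' ∈ Icc (0:ℝ) 1, s < s' → 1 ≤ g s → 1 < g s' := by
    intro s hs s' hs' hss h1
    obtain ⟨k, hk⟩ : ∃ k : Fin 3 × Bool, h k ≤ bsg k.2 * (ψ (γ s) - c) k.1 := by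
      by_contra h2
      refine absurd h1 (not_le.2 ((boxG_lt_iff hh).2 fun k => ?_))
      rw [one_mul]
      exact not_le.1 fun h3 => h2 ⟨k, h3⟩
    set φ : ℝ → ℝ := fun τ => bsg k.2 * (ψ (γ τ) - c) k.1 with hφ
    have hφc : ContinuousOn φ (Icc 0 1) :=
      continuousOn_const.mul
        ((continuous_apply k.1).comp_continuousOn (hψγ.sub continuousOn_const))
    have hφe : ∀ τ, φ τ = h k → ψ (γ τ) k.1 = c k.1 + bsg k.2 * h k := fun τ h2 => by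
      rw [← h2, hφ, ← mul_assoc, bsg_mul_self, one_mul, Pi.sub_apply, add_sub_cancel]
    have h2 : φ 0 < h k := by
      have h3 := (boxG_lt_iff hh).1 hg0 k
      rwa [one_mul] at h3
    obtain ⟨τ₀, hτ₀, h3⟩ := intermediate_value_Icc hs.1
      (hφc.mono (Icc_subset_Icc le_rfl hs.2)) (show h k ∈ Icc (φ 0) (φ s) from ⟨h2.le, hk⟩)
    have hτ₀' : τ₀ ∈ Icc (0:ℝ) 1 := ⟨hτ₀.1, hτ₀.2.trans hs.2⟩
    have h4 : h k < φ 1 := by
      by_contra h5
      refine (H k).2 ?_ _ (hγm τ₀ hτ₀') (hφe τ₀ h3)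
      have h6 := not_lt.1 h5
      simp only [hφ, hγ1, Pi.sub_apply] at h6
      exact h6
    by_contra h5
    have h6 : φ s' ≤ h k := by
      have h7 := (boxG_le_iff hh).1 (not_lt.1 h5) k
      rwa [one_mul] at h7
    obtain ⟨τ₁, hτ₁, h7⟩ := intermediate_value_Icc hs'.2
      (hφc.mono (Icc_subset_Icc hs'.1 le_rfl)) (show h k ∈ Icc (φ s') (φ 1) from ⟨h6, h4.le⟩)
    have hτ₁' : τ₁ ∈ Icc (0:ℝ) 1 := ⟨hs'.1.trans hτ₁.1, hτ₁.2⟩
    have h8 : γ τ₀ = γ τ₁ := encard_le_one_iff.1 (H k).1 _ _ ⟨hγm τ₀ hτ₀', hφe τ₀ h3⟩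
      ⟨hγm τ₁ hτ₁', hφe τ₁ h7⟩
    have h9 := hγi h8
    linarith [hτ₀.2, hτ₁.1]
  obtain ⟨τ, hτ, hτ1⟩ := intermediate_value_Icc zero_le_one hgc
    (show (1:ℝ) ∈ Icc (g 0) (g 1) from ⟨hg0.le, hg1.le⟩)
  have hτ0 : 0 < τ := lt_of_le_of_ne hτ.1 fun h1 => by
    rw [← h1] at hτ1
    exact hg0.ne hτ1
  have hτ2 : τ < 1 := lt_of_le_of_ne hτ.2 fun h1 => by
    rw [h1] at hτ1
    exact hg1.ne' hτ1
  obtain ⟨r, hr, hcon⟩ := hG.2 (γ τ) (hγm τ hτ)
  have hn : 0 < ‖y - x‖ := norm_pos_iff.2 (sub_ne_zero.2 hxy.symm)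
  set ε : ℝ := min (min τ (1 - τ)) (r / ‖y - x‖) with hε
  have hε0 : 0 < ε := lt_min (lt_min hτ0 (by linarith)) (div_pos hr hn)
  have hε1 : ε ≤ τ := (min_le_left _ _).trans (min_le_left _ _)
  have hε2 : ε ≤ 1 - τ := (min_le_left _ _).trans (min_le_right _ _)
  have hε3 : ε * ‖y - x‖ ≤ r := (le_div_iff₀ hn).1 (min_le_right _ _)
  have hadd : ∀ s : ℝ, γ τ + s • (y - x) = γ (τ + s) := fun s => by
    simp only [hγ, AffineMap.lineMap_apply, vsub_eq_sub, vadd_eq_add, add_smul]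
    abel
  have hside : ∀ e : ℝ, |e| = ε → ∀ t ∈ Icc (0:ℝ) 1,
      g (τ + t * e) = 1 + t * (g (τ + e) - 1) := by
    intro e he t ht
    have h1 : ‖e • (y - x)‖ ≤ r := by rwa [norm_smul, Real.norm_eq_abs, he]
    have h2 : γ τ + e • (y - x) ∈ segment ℝ x y := by
      rw [hadd]
      exact hγm _ ⟨by linarith [neg_abs_le e], by linarith [le_abs_self e]⟩
    have h3 := (hcon _ h1 h2 t ht).2
    rw [smul_smul, hadd, hadd] at h3
    have h4 : g (τ + t * e) = g τ + t • (g (τ + e) - g τ) := h3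
    rwa [hτ1, smul_eq_mul] at h4
  obtain ⟨δ, hδ, hu⟩ := unique_level hgc (τ := τ) (a := g (τ + ε) - 1) (b := g (τ + -ε) - 1) hε0
    (by linarith) (by linarith)
    (fun s hs h1 => not_le.1 fun h2 => (key s hs τ hτ h1 h2).ne' hτ1)
    (fun s hs h1 => key τ hτ s hs h1 hτ1.ge) (hside ε (abs_of_pos hε0))
    (fun t ht => by
      have h1 := hside (-ε) (by rw [abs_neg, abs_of_pos hε0]) t ht
      rwa [mul_neg, ← sub_eq_add_neg] at h1)
  refine ⟨δ, hδ, fun t ht => ?_⟩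
  obtain ⟨s, hs, h1, h2⟩ := hu t ht
  refine ncard_eq_one.2 ⟨ψ (γ s), eq_singleton_iff_unique_mem.2 ⟨⟨⟨γ s, hγm s hs, rfl⟩, h1⟩, ?_⟩⟩
  rintro z ⟨⟨p, hp, rfl⟩, h3⟩
  rw [segment_eq_image_lineMap] at hp
  obtain ⟨s', hs', rfl⟩ := hp
  rw [← h2 s' hs' h3]

end P073.STR
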