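import Vale.Agent.P073Z.STR.S1

/-!
# Straightening: the surgery along the good edges
-/

open Set Metric Topology Filter MeasureTheory AffineMap
open scoped ENNReal NNReal

namespace P073.STR

/-- a wire not inside a cell misses it or starts in it -/
theorem wire_cell {Q : RCx E3} (hQ : Q.Cvx) {e i : Q.ι} (he : Q.dim e = 1)
    (h : ¬ Q.cell e ⊆ Q.cell i) : Disjoint (Q.cell e) (Q.cell i) ∨
      ∃ x y, Wire Q e x y ∧ x ∈ Q.cell i ∧ y ∉ Q.cell i := by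
  by_cases hd : Disjoint (Q.cell e) (Q.cell i)
  · exact Or.inl hd
  obtain ⟨z, hz, hzi⟩ := not_disjoint_iff.1 hd
  obtain ⟨p, q, hw⟩ := exists_wire hQ he
  have hb := mem_bd_of_not_subset h hz hzi
  have key : ∀ x y, Wire Q e x y → x ∈ Q.cell i → y ∉ Q.cell i := fun x y hxy hx hy =>
    h (hxy.2.2.1 ▸ (hQ i).1.segment_subset hx hy)
  rw [hw.2.2.2] at hb
  rcases hb with rfl | rfl
  · exact Or.inr ⟨_, _, hw, hzi, key _ _ hw hzi⟩
  · exact Or.inr ⟨_, _, hw.symm, hzi, key _ _ hw.symm hzi⟩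

theorem wire_wire {Q : RCx E3} (hQ : Q.Cvx) {j k : Q.ι} (hj : Q.dim j = 1) (hk : Q.dim k = 1)
    (hne : j ≠ k) : Disjoint (Q.cell j) (Q.cell k) ∨
      ∃ x y y', Wire Q j x y ∧ Wire Q k x y' ∧ y ∉ Q.cell k := by
  rcases wire_cell hQ hj (i := k) (fun h => hne (Q.eq_of_subset_of_dim_le h (by omega))) with
    h | ⟨x, y, h, hx, hy⟩
  · exact Or.inl h
  · obtain ⟨v, hv, hxv⟩ := h.vertex
    obtain ⟨y', h'⟩ := exists_wire_at hQ hv hxv hk hx
    exact Or.inr ⟨x, y, y', h, h', hy⟩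

theorem quarter_le {s w : ℝ} (hs : 0 < s) (hw : 0 < w) (hw1 : w ≤ 1) :
    s * w ^ 2 / 4 ≤ s * w / 4 ∧ s * w ≤ s := by
  have h1 : s * w * w ≤ s * w := mul_le_of_le_one_right (mul_pos hs hw).le hw1
  exact ⟨by nlinarith, mul_le_of_le_one_right hs.le hw1⟩

section good

variable {Q : RCx E3} {f : E3 → E3} {β : ℝ} (γ : Good Q f kap β)

/-- the lens around the chord of a wire -/
def Wl (e : Q.ι) : Set E3 :=
  {z | ∀ x y, Wire Q e x y → z ∈ LensS (f x) (f y) (γ.s e * (γ.M e)⁻¹ ^ 2 / 4)}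

theorem Wl_eq {e : Q.ι} {x y : E3} (h : Wire Q e x y) :
    Wl γ e = LensS (f x) (f y) (γ.s e * (γ.M e)⁻¹ ^ 2 / 4) := by
  refine Subset.antisymm (fun z hz => hz x y h) fun z hz x' y' h' => ?_
  rcases h.unique h' with ⟨rfl, rfl⟩ | ⟨rfl, rfl⟩
  · exact hz
  · exact LensS.symm hz

theorem Wl_near {k : Q.ι} {x y z : E3} (hk : k ∈ γ.G) (h : Wire Q k x y) (hz : z ∈ Wl γ k) :
    ∃ τ ∈ Icc (0:ℝ) 1, lineMap (f x) (f y) τ ∈ γ.A k '' Q.cell k ∧
      dist z (lineMap (f x) (f y) τ) < γ.s k * (γ.M k)⁻¹ / 4 := by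
  rw [Wl_eq γ h] at hz
  obtain ⟨τ, hτ, h1, -⟩ := hz
  have hs := (γ.pos k hk).1
  have hw := w_pos γ hk
  refine ⟨τ, hτ, A_edge γ hk h ▸ lineMap_mem hτ, h1.trans_le ?_⟩
  exact (mul_le_of_le_one_right (by positivity) hτ.2).trans (quarter_le hs hw (w_le γ hk)).1

theorem Wl_ball {k : Q.ι} {x y z : E3} (hk : k ∈ γ.G) (h : Wire Q k x y) (hz : z ∈ Wl γ k) :
    dist z (f x) < 2 * β := by
  obtain ⟨τ, hτ, -, h1⟩ := Wl_near γ hk h hz
  obtain ⟨v, hv, hx⟩ := h.vertex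
  have h2 := (chord_len γ (A_vertex γ hk hv hx h.left_mem).1 hx h).2.2
  have h3 := dist_triangle z (lineMap (f x) (f y) τ) (f x)
  rw [dist_lineMap_first _ _ hτ.1] at h3
  have h4 : τ * dist (f y) (f x) ≤ dist (f y) (f x) := mul_le_of_le_one_left dist_nonneg hτ.2
  have h5 := (quarter_le (γ.pos k hk).1 (w_pos γ hk) (w_le γ hk)).2
  have h6 := s_le γ hk
  have h7 := (γ.pos k hk).1
  linarith

theorem left_mem_A {k : Q.ι} {x y : E3} (hk : k ∈ γ.G) (h : Wire Q k x y) :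
    f x ∈ γ.A k '' Q.cell k := A_edge γ hk h ▸ left_mem_segment _ _ _

/-- a thin cone along another wire misses the lens -/
theorem cone_disj {j k : Q.ι} {x y y' : E3} {a : ℝ} (hk : k ∈ γ.G) (hj : Wire Q j x y)
    (hk' : Wire Q k x y') (hy : y ∉ Q.cell k) (ha : a ≤ γ.s k * (γ.M k)⁻¹ ^ 2 / 4) :
    Disjoint (ConeCh (f x) (f y) a) (Wl γ k) := by
  obtain ⟨v, hv, hx⟩ := hj.vertex
  obtain ⟨h1, h2, h3, -⟩ := A_vertex γ hk hv hx hk'.left_mem
  have h4 := (chord_len γ h1 hx hj).2.1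
  have h5 := (chord_len γ h1 hx hk').1
  rw [h2] at h5
  rw [h2, h3] at h4
  rw [Wl_eq γ hk']
  refine cone_disjoint_lens (γ.pos k hk).1 (w_pos γ hk) (w_le γ hk) h4 h5 ha fun τ hτ z hz => ?_
  rw [← div_eq_mul_inv]
  exact γ.ang k hk j x y hj.1 hj.2.2.1 hk'.left_mem hy τ hτ z (A_edge γ hk hk' ▸ hz)

theorem chord_near {k : Q.ι} {x y : E3} (hk : k ∈ γ.G) (h : Wire Q k x y) {τ : ℝ}
    (hτ : τ ∈ Icc (0:ℝ) 1) :
    dist (f (lineMap x y τ)) (lineMap (f x) (f y) τ) ≤ γ.s k * (γ.M k)⁻¹ / 4 := by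
  obtain ⟨v, hv, hx⟩ := h.vertex
  obtain ⟨h1, h2, h3, -⟩ := A_vertex γ hk hv hx h.left_mem
  have h4 := (γ.wire v h1 k x y h.1 hx h.2.2.1).2.2
  rw [h2, h3, kap_eq (γ.pos k hk).2.1] at h4
  have h5 := (eVariationOn.edist_le
    (fun t : ℝ => f (lineMap x y t) - lineMap (f x) (f y) t) hτ
    (show (0:ℝ) ∈ Icc (0:ℝ) 1 from ⟨le_rfl, zero_le_one⟩)).trans h4
  have hs := (γ.pos k hk).1
  have hw := w_pos γ hk
  simp only [lineMap_apply_zero, sub_self] at h5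
  rw [edist_dist, ENNReal.ofReal_le_ofReal_iff (by positivity), dist_zero_right,
    ← dist_eq_norm] at h5
  have h6 : (γ.M k)⁻¹ ^ 4 ≤ (γ.M k)⁻¹ := by
    simpa using pow_le_pow_of_le_one hw.le (w_le γ hk) (show 1 ≤ 4 by norm_num)
  have h7 := mul_le_mul_of_nonneg_left h6 hs.le
  linarith [mul_pos hs hw]

theorem Wl_disjoint (hQ : Q.Cvx) (hβ : 0 < β) {k k' : Q.ι} (hk : k ∈ γ.G) (hk' : k' ∈ γ.G)
    (h1 : Q.dim k = 1) (h1' : Q.dim k' = 1) (hne : k' ≠ k) : Disjoint (Wl γ k') (Wl γ k) := by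
  rcases wire_wire hQ h1' h1 hne with h | ⟨x, y, y', h, h', hy⟩
  · rw [disjoint_left]
    intro z hz' hz
    obtain ⟨x, y, hw⟩ := exists_wire hQ h1
    obtain ⟨x', y', hw'⟩ := exists_wire hQ h1'
    obtain ⟨τ, -, a1, a2⟩ := Wl_near γ hk hw hz
    obtain ⟨σ, hσ, b1, b2⟩ := Wl_near γ hk' hw' hz'
    have h3 := dist_triangle_left (lineMap (f x') (f y') σ : E3) (lineMap (f x) (f y) τ) z
    by_cases hs : γ.s k' = γ.s k ∧ γ.M k' = γ.M k
    · have h4 := γ.far k hk k' h1' h (lineMap x' y' σ) (hw'.2.2.1 ▸ lineMap_mem hσ) _ a1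
      have h5 := chord_near γ hk' hw' hσ
      have h6 := dist_triangle (f (lineMap x' y' σ)) (lineMap (f x') (f y') σ : E3)
        (lineMap (f x) (f y) τ)
      rw [hs.1, hs.2] at b2 h5
      rw [div_eq_mul_inv] at h4
      linarith [mul_pos (γ.pos k hk).1 (w_pos γ hk)]
    · have h4 := γ.sep k' hk' k hk (not_and_or.1 hs) _ b1 _ a1
      linarith [(quarter_le (γ.pos k hk).1 (w_pos γ hk) (w_le γ hk)).2,
        (quarter_le (γ.pos k' hk').1 (w_pos γ hk') (w_le γ hk')).2, s_le γ hk, s_le γ hk']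
  · obtain ⟨v, hv, hx⟩ := h.vertex
    obtain ⟨-, a2, a3, -⟩ := A_vertex γ hk hv hx h'.left_mem
    obtain ⟨-, b2, b3, -⟩ := A_vertex γ hk' hv hx h.left_mem
    refine (cone_disj γ hk h h' hy le_rfl).mono_left ?_
    rw [Wl_eq γ h, ← b2, ← b3, a2, a3]
    exact LensS.cone

variable {R₀ R₁ : Q.ι → Set E3}

/-- a wire starting in a good cell stays in a thin cone -/
theorem Stage1.cone (S : Stage1 γ R₀ R₁) {i e : Q.ι} {x y : E3} (hi : i ∈ γ.G)
    (he : Wire Q e x y) (hx : x ∈ Q.cell i) :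
    R₁ e ⊆ ConeCh (f x) (f y) (γ.s i * (γ.M i)⁻¹ ^ 2 / 1000) := by
  obtain ⟨v, hv, hxv⟩ := he.vertex
  obtain ⟨h1, h2, h3, -⟩ := A_vertex γ hi hv hxv hx
  rw [← h2, ← h3]
  exact (S.ends v h1 e x y hv hxv he).cone (γ.pos v h1).1 (w_pos γ h1) (w_le γ h1)
    (chord_len γ h1 hxv he).2.1

theorem Stage1.key (S : Stage1 γ R₀ R₁) (hQ : Q.Cvx) {j k : Q.ι} (hk : k ∈ γ.G)
    (h1 : Q.dim k = 1) (hj : Q.dim j = 1) (hne : j ≠ k) : Disjoint (R₁ j) (Wl γ k) := by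
  rcases wire_wire hQ hj h1 hne with h | ⟨x, y, y', h, h', hy⟩
  · rw [disjoint_left]
    intro z hz hz'
    obtain ⟨x, y, hw⟩ := exists_wire hQ h1
    obtain ⟨τ, -, a1, a2⟩ := Wl_near γ hk hw hz'
    linarith [S.far k hk j hj h z hz _ a1, mul_pos (γ.pos k hk).1 (w_pos γ hk)]
  · refine (cone_disj γ hk h h' hy ?_).mono_left (S.cone γ hk h h'.left_mem)
    have := mul_pos (γ.pos k hk).1 (pow_pos (w_pos γ hk) 2)
    linarith

theorem Stage1.key1 (S : Stage1 γ R₀ R₁) (hQo : IsOpen Q.carrier) (hQ : Q.Cvx) {j k : Q.ι}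
    (hk : k ∈ γ.G) (h1 : Q.dim k = 1) (hj : Q.dim j ≤ 1) (hne : j ≠ k) :
    Disjoint (R₁ j) (Wl γ k) := by
  rcases Nat.le_one_iff_eq_zero_or_eq_one.1 hj with h0 | h0
  · obtain ⟨x, hx⟩ := Q.exists_vertex h0
    by_cases hxk : x ∈ Q.cell k
    · obtain ⟨y, hw⟩ := exists_wire_at hQ h0 hx h1 hxk
      obtain ⟨a1, a2, -, -⟩ := A_vertex γ hk h0 hx hxk
      have a3 := (chord_len γ a1 hx hw).1
      rw [S.vert j a1 x h0 hx, disjoint_singleton_left, Wl_eq γ hw]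
      rintro ⟨τ, hτ, b1, -⟩
      rw [dist_comm, dist_lineMap_first _ _ hτ.1] at b1
      obtain ⟨c1, c2⟩ := quarter_le (γ.pos k hk).1 (w_pos γ hk) (w_le γ hk)
      have c3 : γ.s k * (γ.M k)⁻¹ ^ 2 / 4 ≤ dist (f y) (f x) := by
        linarith [mul_pos (γ.pos k hk).1 (w_pos γ hk)]
      nlinarith [mul_le_mul_of_nonneg_right c3 hτ.1]
    · obtain ⟨e, he, hxe⟩ := exists_edge_at Q hQo h0 hx
      refine (S.key γ hQ hk h1 he fun h => hxk (h ▸ hxe)).mono_left ?_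
      exact S.real.mono (by omega) (hx ▸ singleton_subset_iff.2 hxe)
  · exact S.key γ hQ hk h1 h0 hne

/-- the surgery along one good edge -/
theorem Stage1.step (hCS : CS) (hT : TENT) (S : Stage1 γ R₀ R₁) (hQo : IsOpen Q.carrier)
    (hQ : Q.Cvx) {k : Q.ι} (hk : k ∈ γ.G) (h1 : Q.dim k = 1) {R : Q.ι → Set E3}
    (hR : Realiz Q 2 R) (hd : ∀ j, Q.dim j ≤ 1 → j ≠ k → Disjoint (R j) (Wl γ k))
    (hRk : R k = R₁ k) (hfin : {i | Q.dim i ≤ 2 ∧ (R i ∩ Wl γ k).Nonempty}.Finite) :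
    ∃ R' : Q.ι → Set E3, Realiz Q 2 R' ∧
      (∀ i, Q.dim i ≤ 2 → R' i ⊆ R i ∪ Wl γ k ∧ (Disjoint (R i) (Wl γ k) → R' i = R i)) ∧
      R' k \ Wl γ k = R k \ Wl γ k ∧ R' k = γ.A k '' Q.cell k := by
  obtain ⟨x, y, hw⟩ := exists_wire hQ h1
  obtain ⟨v, hv, hx⟩ := hw.vertex
  obtain ⟨v', hv', hy⟩ := hw.symm.vertex
  obtain ⟨a1, a2, a3, -⟩ := A_vertex γ hk hv hx hw.left_mem
  obtain ⟨b1, b2, b3, -⟩ := A_vertex γ hk hv' hy hw.symm.left_mem
  have e0 := S.ends v a1 k x y hv hx hw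
  have e1 := S.ends v' b1 k y x hv' hy hw.symm
  obtain ⟨c1, c2, -⟩ := chord_len γ a1 hx hw
  rw [a2, a3, ← hRk] at e0
  rw [b2, b3, ← hRk] at e1
  rw [a2, a3] at c2
  rw [a2] at c1
  obtain ⟨g, m, t₁, t₂, g1, g2, g3, g4, g5, g6, g7, g8⟩ :=
    edge_geom hT e0 e1 (γ.pos k hk).1 (w_pos γ hk) (w_le γ hk) c2 c1
  rw [← Wl_eq γ hw] at g6 g8
  have hout : ∀ i, Disjoint (R i) (Wl γ k) → ∀ z ∈ R i, t₂ ≤ g (z - m) := fun i hi z hz =>
    le_of_not_ge fun h => disjoint_left.1 hi hz (g6 z h)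
  obtain ⟨t, ht, R', hR', k1, -, k2⟩ := hCS Q R k hQo hR h1.le g1 g2 g3 g4 g5
    (hfin.subset fun i ⟨hi, z, hz, hz'⟩ => ⟨hi, z, hz, g6 z hz'⟩)
    (fun j hj hs => hout j (hd j hj fun e => hs (e ▸ Subset.rfl))) g7
    (fun e he hs t ht => by
      rw [← Q.eq_of_subset_of_dim_le hs (by omega), h1]
      exact (g8 t ht).1)
  obtain ⟨Ψ, p1, p2⟩ := (g8 t ht).2
  have hin : ∀ z ∈ Wl γ k, Ψ.toFun z ∈ Wl γ k := fun z hz => by
    by_contra h
    have := Ψ.injOn (mem_univ _) (mem_univ _) (p1 _ h)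
    exact h (this.symm ▸ hz)
  have hsub : ∀ i, Q.dim i ≤ 2 → Ψ.toFun '' R' i ⊆ R i ∪ Wl γ k := by
    rintro i hi _ ⟨z, hz, rfl⟩
    by_cases h : z ∈ Wl γ k
    · exact Or.inr (hin z h)
    · rw [p1 z h]
      exact ((k1 i hi).1 hz).imp id fun h' => g6 z (le_trans h' ht.2.le)
  refine ⟨fun i => Ψ.toFun '' R' i, hR'.image Ψ (subset_univ _), fun i hi => ⟨hsub i hi,
    fun h => ?_⟩, ?_, ?_⟩
  · show Ψ.toFun '' R' i = R i
    rw [(k1 i hi).2 (hout i h)]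
    exact (image_congr fun z hz => p1 z (disjoint_left.1 h hz)).trans (image_id _)
  · refine Subset.antisymm (fun z hz => ⟨(hsub k (by omega) hz.1).resolve_right hz.2, hz.2⟩)
      fun z hz => ⟨⟨z, ?_, p1 z hz.2⟩, hz.2⟩
    rw [k2 k h1 Subset.rfl]
    exact Or.inl ⟨hz.1, ht.2.le.trans (le_of_not_ge fun h => hz.2 (g6 z h))⟩
  · show Ψ.toFun '' R' k = _
    rw [k2 k h1 Subset.rfl, p2, A_edge γ hk hw]

end good

theorem edge_of (hCS : CS) (hT : TENT) : EDGE := by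
  classical
  intro Q f β γ R₀ R₁ hβ hQo hQ S hfin
  have hs : ∀ k, k ∈ γ.G.filter (fun i => Q.dim i = 1) ↔ k ∈ γ.G ∧ Q.dim k = 1 :=
    fun k => Finset.mem_filter
  have hnear : ∀ i, Q.dim i ≤ 2 → ∀ z ∈ R₁ i, ∃ u ∈ R₀ i, dist z u < β := fun i hi z hz =>
    mem_thickening_iff.1 ((S.moved i hi).1 hz)
  obtain ⟨R, hR, h2, h1⟩ := seq (γ.G.filter fun i => Q.dim i = 1) (Wl γ)
    (fun k hk k' hk' hne => Wl_disjoint γ hQ hβ ((hs k').1 hk').1 ((hs k).1 hk).1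
      ((hs k').1 hk').2 ((hs k).1 hk).2 hne) S.real
    (fun k j X => j = k → X ∪ (R₁ k \ Wl γ k) = γ.A k '' Q.cell k)
    (fun k hk => by
      obtain ⟨hk, hk1⟩ := (hs k).1 hk
      refine (hfin k hk).subset fun i ⟨hi, z, hz, hz'⟩ => ?_
      obtain ⟨u, hu, hzu⟩ := hnear i hi z hz
      obtain ⟨x, y, hw⟩ := exists_wire hQ hk1
      refine ⟨hi, u, hu, mem_thickening_iff.2 ⟨f x, left_mem_A γ hk hw, ?_⟩⟩
      linarith [dist_triangle_left u (f x) z, Wl_ball γ hk hw hz'])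
    (fun k hk R hR a1 a2 a3 => by
      obtain ⟨hk, hk1⟩ := (hs k).1 hk
      have hd : ∀ j, Q.dim j ≤ 1 → j ≠ k → Disjoint (R j) (Wl γ k) := fun j hj hne => by
        rw [disjoint_iff_inter_eq_empty, a1 j hj, ← disjoint_iff_inter_eq_empty]
        exact S.key1 γ hQo hQ hk hk1 hj hne
      have hRk : R k = R₁ k := a2 k (by omega) fun k' hk' hne =>
        S.key γ hQ ((hs k').1 hk').1 ((hs k').1 hk').2 hk1 hne.symm
      obtain ⟨R', b1, b2, b3, b4⟩ := S.step γ hCS hT hQo hQ hk hk1 hR hd hRk a3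
      refine ⟨R', b1, b2, fun j hj => ?_⟩
      by_cases e : j = k
      · subst e
        exact ⟨b3, fun _ => by rw [← hRk, ← b3, inter_union_sdiff, b4]⟩
      · exact ⟨by rw [(b2 j (by omega)).2 (hd j hj e)], fun h => absurd h e⟩)
  have hold : ∀ j, Q.dim j ≤ 1 → (j ∈ γ.G → Q.dim j ≠ 1) → R j = R₁ j := fun j hj h =>
    (h2 j (by omega)).2 fun k hk => S.key1 γ hQo hQ ((hs k).1 hk).1 ((hs k).1 hk).2 hj
      fun e => h (e ▸ ((hs k).1 hk).1) (e ▸ ((hs k).1 hk).2)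
  have hnew : ∀ k ∈ γ.G, Q.dim k = 1 → R k = γ.A k '' Q.cell k := fun k hk hk1 => by
    have hkey : ∀ k' ∈ γ.G.filter (fun i => Q.dim i = 1), k' ≠ k → Disjoint (R₁ k) (Wl γ k') :=
      fun k' hk' hne => S.key γ hQ ((hs k').1 hk').1 ((hs k').1 hk').2 hk1 hne.symm
    have e : R₁ k \ Wl γ k = R k \ Wl γ k := by
      refine Subset.antisymm (fun z hz => ⟨((h1 k hk1.le).1 z fun k' hk' h => ?_).2 hz.1, hz.2⟩)
        fun z hz => ⟨?_, hz.2⟩
      · by_cases e : k' = k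
        · exact hz.2 (e ▸ h)
        · exact disjoint_left.1 (hkey k' hk' e) hz.1 h
      · rcases (h2 k (by omega)).1 z hz.1 with h | ⟨k', hk', h, h'⟩
        · exact h
        · by_cases e : k' = k
          · exact absurd (e ▸ h) hz.2
          · exact absurd (hkey k' hk' e) (not_disjoint_iff_nonempty_inter.2 h')
    rw [← (h1 k hk1.le).2 k ((hs k).2 ⟨hk, hk1⟩) rfl, e, inter_union_sdiff]
  refine ⟨R, hR, fun i hi hi1 => ?_, fun i hi e he => ?_, fun e x y he hxy => ?_,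
    fun i hi => ⟨fun z hz => ?_, fun h => ?_⟩⟩
  · rcases Nat.le_one_iff_eq_zero_or_eq_one.1 hi1 with h0 | h0
    · obtain ⟨x, hx⟩ := Q.exists_vertex h0
      rw [hold i hi1 fun _ => by omega, S.vert i hi x h0 hx, hx, image_singleton,
        γ.vert i hi h0 (hx ▸ mem_singleton x)]
    · exact hnew i hi h0
  · by_cases heG : e ∈ γ.G
    · rw [hnew e heG he, inter_comm, inter_comm (Q.cell e)]
      exact γ.inter i hi e heG
    · rw [hold e he.le fun h => absurd h heG]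
      rintro z ⟨hz, hzi⟩
      have hs0 := (γ.pos i hi).1
      have hw := w_pos γ hi
      rcases wire_cell hQ he (i := i) (fun h => heG (γ.face i hi e h).1) with h | ⟨x, y, h, hx, hy⟩
      · have := S.far i hi e he h z hz z hzi
        rw [dist_self] at this
        linarith [mul_pos hs0 hw]
      · obtain ⟨v, hv, hxv⟩ := h.vertex
        have c := (quarter_le hs0 hw (w_le γ hi)).1
        refine ⟨x, ⟨h.left_mem, hx⟩, (A_vertex γ hi hv hxv hx).2.2.2.trans (Eq.symm ?_)⟩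
        refine cone_inter (b := γ.s i * (γ.M i)⁻¹) (by linarith [mul_pos hs0 hw])
          (S.cone γ hi h hx hz) fun τ hτ => ?_
        rw [← div_eq_mul_inv]
        exact γ.ang i hi e x y he h.2.2.1 hx hy τ hτ z hzi
  · obtain ⟨p, q, hw⟩ := exists_wire hQ he
    have hpq : edist (f p) (f q) ≤ segVar f x y := by
      have hp := hw.left_mem
      have hq := hw.symm.left_mem
      rw [hxy, segment_eq_image_lineMap] at hp hq
      obtain ⟨s, hs, rfl⟩ := hp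
      obtain ⟨t, ht, rfl⟩ := hq
      exact eVariationOn.edist_le (fun u : ℝ => f (lineMap x y u)) hs ht
    by_cases heG : e ∈ γ.G
    · rw [hnew e heG he, A_edge γ heG hw, hausdorffMeasure_segment]
      exact (hpq.trans (le_mul_of_one_le_left' (by norm_num))).trans le_add_self
    · rw [hold e he.le fun h => absurd h heG]
      exact (S.len e p q hw).trans (add_le_add (le_mul_of_one_le_left' (by norm_num))
        (mul_le_mul' (by norm_num) hpq))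
  · rcases (h2 i hi).1 z hz with h | ⟨k, hk, h, z', hz', h'⟩
    · exact thickening_mono (by linarith) _ ((S.moved i hi).1 h)
    · obtain ⟨hk, hk1⟩ := (hs k).1 hk
      obtain ⟨u, hu, hzu⟩ := hnear i hi z' hz'
      obtain ⟨x, y, hw⟩ := exists_wire hQ hk1
      refine mem_thickening_iff.2 ⟨u, hu, ?_⟩
      linarith [dist_triangle z z' u, dist_triangle_right z z' (f x), Wl_ball γ hk hw h,
        Wl_ball γ hk hw h']
  · have e : R₁ i = R₀ i := (S.moved i hi).2 (h.mono_right (thickening_mono (by linarith) _))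
    rw [(h2 i hi).2 fun k hk => ?_, e]
    obtain ⟨hk, hk1⟩ := (hs k).1 hk
    obtain ⟨x, y, hw⟩ := exists_wire hQ hk1
    rw [e]
    refine h.mono_right fun z hz => mem_thickening_iff.2 ⟨f x, mem_iUnion₂.2
      ⟨k, hk, left_mem_A γ hk hw⟩, ?_⟩
    linarith [Wl_ball γ hk hw hz]

end P073.STR
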