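import Vale.Agent.P073Z.STR.Sk

/-!
# Straightening: levels met as few times as possible
-/

open Set Metric Topology Filter MeasureTheory
open scoped ENNReal NNReal

namespace P073.STR

namespace Lev

theorem vol_image {G : ℝ → ℝ} (hG : LipschitzWith 1 G) (X : Set ℝ) :
    volume (G '' X) ≤ volume X := by
  have h := hG.hausdorffMeasure_image_le zero_le_one X
  rwa [hausdorffMeasure_real, ENNReal.coe_one, ENNReal.one_rpow, one_mul] at h

/-- the values which a contraction takes twice -/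
theorem twice {G : ℝ → ℝ} (hG : LipschitzWith 1 G) {A B : ℝ} (hAB : A ≤ B) :
    volume {t | ∃ x ∈ Icc A B, ∃ y ∈ Icc A B, x < y ∧ G x = t ∧ G y = t} +
      ENNReal.ofReal |G B - G A| ≤ ENNReal.ofReal (B - A) := by
  have hc := hG.continuous
  let X : Set ℝ := {y | ∃ x ∈ Icc A B, y ∈ Icc A B ∧ x < y ∧ G x = G y}
  have hX : MeasurableSet X := by
    have h1 : X = ⋃ n : ℕ, Prod.snd '' ((Icc A B ×ˢ Icc A B) ∩
        ({q : ℝ × ℝ | q.1 + 1 / ((n : ℝ) + 1) ≤ q.2} ∩ {q : ℝ × ℝ | G q.1 = G q.2})) := by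
      ext y
      rw [mem_iUnion]
      constructor
      · rintro ⟨x, hx, hy, hxy, h2⟩
        obtain ⟨n, hn⟩ := exists_nat_one_div_lt (sub_pos.2 hxy)
        exact ⟨n, (x, y), ⟨⟨hx, hy⟩, show x + 1 / ((n : ℝ) + 1) ≤ y by linarith, h2⟩, rfl⟩
      · rintro ⟨n, q, ⟨h2, h3, h4⟩, rfl⟩
        have h5 : (0 : ℝ) < 1 / ((n : ℝ) + 1) := Nat.one_div_pos_of_nat
        have h6 : q.1 + 1 / ((n : ℝ) + 1) ≤ q.2 := h3
        exact ⟨q.1, h2.1, h2.2, by linarith, h4⟩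
    rw [h1]
    refine MeasurableSet.iUnion fun n => (IsCompact.image ?_ continuous_snd).measurableSet
    exact (isCompact_Icc.prod isCompact_Icc).inter_right
      ((isClosed_le (by fun_prop) (by fun_prop)).inter (isClosed_eq (by fun_prop) (by fun_prop)))
  have h1 : {t | ∃ x ∈ Icc A B, ∃ y ∈ Icc A B, x < y ∧ G x = t ∧ G y = t} ⊆
      G '' (Icc A B ∩ X) := by
    rintro t ⟨x, hx, y, hy, hxy, h2, h3⟩
    exact ⟨y, ⟨hy, x, hx, hy, hxy, h2.trans h3.symm⟩, h3⟩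
  have h2 : uIcc (G A) (G B) ⊆ G '' (Icc A B \ X) := by
    intro t ht
    have h3 := intermediate_value_uIcc (a := A) (b := B) hc.continuousOn ht
    rw [uIcc_of_le hAB] at h3
    have h4 : IsCompact (Icc A B ∩ G ⁻¹' {t}) :=
      isCompact_Icc.inter_right (isClosed_singleton.preimage hc)
    obtain ⟨y, hy, h5⟩ := h4.exists_isLeast h3
    refine ⟨y, ⟨hy.1, ?_⟩, hy.2⟩
    rintro ⟨x, hx, -, hxy, h6⟩
    exact absurd (h5 ⟨hx, h6.trans hy.2⟩) (not_le.2 hxy)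
  rw [← Real.volume_Icc, ← measure_inter_add_sdiff (Icc A B) hX, ← Real.volume_interval]
  exact add_le_add ((measure_mono h1).trans (vol_image hG _))
    ((measure_mono h2).trans (vol_image hG _))

/-- the values taken twice by a perturbation of an affine function -/
theorem twice' {φ : ℝ → ℝ} {κ : ℝ} (hκ : 0 ≤ κ)
    (hv : eVariationOn (fun τ => φ τ - AffineMap.lineMap (φ 0) (φ 1) τ) (Icc 0 1) ≤
      ENNReal.ofReal κ) :
    volume {t | ∃ x ∈ Icc (0 : ℝ) 1, ∃ y ∈ Icc (0 : ℝ) 1, x < y ∧ φ x = t ∧ φ y = t} ≤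
      ENNReal.ofReal κ := by
  set u : ℝ → ℝ := fun τ => φ τ - AffineMap.lineMap (φ 0) (φ 1) τ with hu
  have hle : ∀ a b : ℝ, eVariationOn u (Icc 0 1 ∩ Icc a b) ≤ ENNReal.ofReal κ := fun a b =>
    (eVariationOn.mono u inter_subset_left).trans hv
  have hne : ∀ a b : ℝ, eVariationOn u (Icc 0 1 ∩ Icc a b) ≠ ⊤ := fun a b =>
    ne_top_of_le_ne_top ENNReal.ofReal_ne_top (hle a b)
  let v : ℝ → ℝ := fun τ => (eVariationOn u (Icc 0 1 ∩ Icc 0 τ)).toReal
  have hv0 : ∀ τ, 0 ≤ v τ := fun τ => ENNReal.toReal_nonneg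
  have hv1 : ∀ τ, v τ ≤ κ := fun τ => ENNReal.toReal_le_of_le_ofReal hκ (hle 0 τ)
  have hvu : ∀ x ∈ Icc (0 : ℝ) 1, ∀ y ∈ Icc (0 : ℝ) 1, x ≤ y → |u y - u x| ≤ v y - v x := by
    intro x hx y hy hxy
    have h1 := eVariationOn.Icc_add_Icc u (s := Icc 0 1) hx.1 hxy hx
    have h2 := congrArg ENNReal.toReal h1
    rw [ENNReal.toReal_add (hne _ _) (hne _ _)] at h2
    have h3 : dist (u y) (u x) ≤ (eVariationOn u (Icc 0 1 ∩ Icc x y)).toReal :=
      BoundedVariationOn.dist_le (hne x y) ⟨hy, hxy, le_rfl⟩ ⟨hx, le_rfl, hxy⟩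
    rw [Real.dist_eq] at h3
    change v x + _ = v y at h2
    linarith
  refine ENNReal.le_of_forall_pos_le_add fun η hη _ => ?_
  have hη0 : (0 : ℝ) < η := hη
  let V : ℝ → ℝ := fun τ => (|φ 1 - φ 0| + η) * τ + v τ
  have hV : ∀ x ∈ Icc (0 : ℝ) 1, ∀ y ∈ Icc (0 : ℝ) 1, x ≤ y →
      |φ y - φ x| + η * (y - x) ≤ V y - V x := by
    intro x hx y hy hxy
    have h1 := hvu x hx y hy hxy
    have h2 : φ y - φ x = (u y - u x) + (φ 1 - φ 0) * (y - x) := by
      simp only [hu, AffineMap.lineMap_apply_ring']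
      ring
    have h3 := abs_add_le (u y - u x) ((φ 1 - φ 0) * (y - x))
    rw [← h2, abs_mul, abs_of_nonneg (sub_nonneg.2 hxy)] at h3
    change _ ≤ (|φ 1 - φ 0| + η) * y + v y - ((|φ 1 - φ 0| + η) * x + v x)
    linarith
  have hmono : StrictMonoOn V (Icc 0 1) := by
    intro x hx y hy hxy
    have h1 := hV x hx y hy hxy.le
    have h2 := mul_pos hη0 (sub_pos.2 hxy)
    have h3 := abs_nonneg (φ y - φ x)
    linarith
  have hinv : ∀ x ∈ Icc (0 : ℝ) 1, Function.invFunOn V (Icc 0 1) (V x) = x := fun x hx =>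
    hmono.injOn.leftInvOn_invFunOn hx
  have hlip : LipschitzOnWith 1 (fun z => φ (Function.invFunOn V (Icc 0 1) z)) (V '' Icc 0 1) := by
    refine LipschitzOnWith.of_dist_le_mul ?_
    rintro _ ⟨x, hx, rfl⟩ _ ⟨y, hy, rfl⟩
    rw [hinv x hx, hinv y hy, NNReal.coe_one, one_mul, Real.dist_eq, Real.dist_eq]
    rcases le_total x y with hxy | hxy
    · have h1 := hV x hx y hy hxy
      have h2 := mul_nonneg hη0.le (sub_nonneg.2 hxy)
      rw [abs_sub_comm, abs_sub_comm (V x)]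
      exact le_trans (by linarith) (le_abs_self _)
    · have h1 := hV y hy x hx hxy
      have h2 := mul_nonneg hη0.le (sub_nonneg.2 hxy)
      exact le_trans (by linarith) (le_abs_self _)
  obtain ⟨G, hG, hGe⟩ := hlip.extend_real
  have hGV : ∀ x ∈ Icc (0 : ℝ) 1, G (V x) = φ x := fun x hx => by
    rw [← hGe ⟨x, hx, rfl⟩]
    exact congrArg φ (hinv x hx)
  have h0 : (0 : ℝ) ∈ Icc (0 : ℝ) 1 := left_mem_Icc.2 zero_le_one
  have h1 : (1 : ℝ) ∈ Icc (0 : ℝ) 1 := right_mem_Icc.2 zero_le_one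
  have hm : ∀ x ∈ Icc (0 : ℝ) 1, V x ∈ Icc (V 0) (V 1) := fun x hx =>
    ⟨hmono.monotoneOn h0 hx hx.1, hmono.monotoneOn hx h1 hx.2⟩
  have h2 := twice hG (hmono.monotoneOn h0 h1 zero_le_one)
  rw [hGV 0 h0, hGV 1 h1] at h2
  have h3 : ENNReal.ofReal (V 1 - V 0) ≤
      (ENNReal.ofReal κ + η) + ENNReal.ofReal |φ 1 - φ 0| := by
    rw [← ENNReal.ofReal_coe_nnreal, ← ENNReal.ofReal_add hκ hη0.le,
      ← ENNReal.ofReal_add (add_nonneg hκ hη0.le) (abs_nonneg _)]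
    refine ENNReal.ofReal_le_ofReal ?_
    have h4 := hv0 0
    have h5 := hv1 1
    change (|φ 1 - φ 0| + η) * 1 + v 1 - ((|φ 1 - φ 0| + η) * 0 + v 0) ≤ _
    linarith
  refine le_trans (measure_mono ?_)
    (ENNReal.le_of_add_le_add_right ENNReal.ofReal_ne_top (h2.trans h3))
  rintro t ⟨x, hx, y, hy, hxy, h4, h5⟩
  exact ⟨V x, hm x hx, V y, hm y hy, hmono hx hy hxy, (hGV x hx).trans h4, (hGV y hy).trans h5⟩

/-- the values are near the interval between the end values -/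
theorem near {φ : ℝ → ℝ} {κ : ℝ} (hκ : 0 ≤ κ)
    (hv : eVariationOn (fun τ => φ τ - AffineMap.lineMap (φ 0) (φ 1) τ) (Icc 0 1) ≤
      ENNReal.ofReal κ) {τ : ℝ} (hτ : τ ∈ Icc (0 : ℝ) 1) (h0 : κ < |φ τ - φ 0|)
    (h1 : κ < |φ τ - φ 1|) : φ τ ∈ uIcc (φ 0) (φ 1) := by
  have h2 := (eVariationOn.edist_le (fun τ => φ τ - AffineMap.lineMap (φ 0) (φ 1) τ) hτ
    (left_mem_Icc.2 zero_le_one)).trans hv
  rw [edist_dist, ENNReal.ofReal_le_ofReal_iff hκ, AffineMap.lineMap_apply_zero, sub_self,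
    Real.dist_eq, sub_zero, abs_le] at h2
  have h3 : AffineMap.lineMap (φ 0) (φ 1) τ ∈ uIcc (φ 0) (φ 1) := by
    rw [← segment_eq_uIcc, segment_eq_image_lineMap]
    exact ⟨τ, hτ, rfl⟩
  rw [mem_uIcc] at h3 ⊢
  rw [lt_abs] at h0 h1
  obtain ⟨h4, h5⟩ := h2
  rcases h3 with ⟨h6, h7⟩ | ⟨h6, h7⟩
  · left
    constructor
    · rcases h0 with h0 | h0 <;> linarith
    · rcases h1 with h1 | h1 <;> linarith
  · right
    constructor
    · rcases h1 with h1 | h1 <;> linarith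
    · rcases h0 with h0 | h0 <;> linarith

end Lev

open Lev in
theorem lev : LEV := by
  intro ι s φ a b κ hκ hφ hab
  let B : ι → Set ℝ := fun e => closedBall (φ e 0) κ ∪ closedBall (φ e 1) κ ∪
    {t | ∃ x ∈ Icc (0 : ℝ) 1, ∃ y ∈ Icc (0 : ℝ) 1, x < y ∧ φ e x = t ∧ φ e y = t}
  have hB : ∀ e ∈ s, volume (B e) ≤ ENNReal.ofReal (6 * κ) := by
    intro e he
    refine (measure_union_le _ _).trans ?_
    refine (add_le_add (measure_union_le _ _) (twice' hκ (hφ e he).2)).trans ?_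
    have h1 : 0 ≤ 2 * κ := by linarith
    rw [Real.volume_closedBall, Real.volume_closedBall, ← ENNReal.ofReal_add h1 h1,
      ← ENNReal.ofReal_add (add_nonneg h1 h1) hκ]
    exact ENNReal.ofReal_le_ofReal (by linarith)
  have hU : volume (⋃ e ∈ s, B e) ≤ ENNReal.ofReal (6 * (s.card : ℝ) * κ) := by
    refine (measure_biUnion_finset_le s B).trans ((Finset.sum_le_card_nsmul s _ _ hB).trans ?_)
    rw [nsmul_eq_mul, ← ENNReal.ofReal_natCast, ← ENNReal.ofReal_mul (Nat.cast_nonneg _)]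
    exact ENNReal.ofReal_le_ofReal (le_of_eq (by ring))
  refine ⟨Icc a b \ toMeasurable volume (⋃ e ∈ s, B e),
    measurableSet_Icc.diff (measurableSet_toMeasurable _ _), fun h0 => ?_, sdiff_subset,
    fun t ht e he => ?_⟩
  · have h1 := measure_le_inter_add_sdiff volume (Icc a b) (toMeasurable volume (⋃ e ∈ s, B e))
    rw [h0, add_zero, Real.volume_Icc] at h1
    have h2 := h1.trans (measure_mono inter_subset_right)
    rw [measure_toMeasurable] at h2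
    have h3 : 0 ≤ 6 * (s.card : ℝ) * κ := by positivity
    exact absurd ((ENNReal.ofReal_le_ofReal_iff h3).1 (h2.trans hU)) (not_le.2 hab)
  · have h1 : t ∉ B e := fun h2 =>
      ht.2 (subset_toMeasurable _ _ (mem_biUnion (show e ∈ (s : Set ι) from he) h2))
    have h2 : κ < |t - φ e 0| := not_le.1 fun h3 => h1 (Or.inl (Or.inl h3))
    have h3 : κ < |t - φ e 1| := not_le.1 fun h3 => h1 (Or.inl (Or.inr h3))
    refine ⟨h2, h3, encard_le_one_iff.2 fun x y hx hy => ?_, fun h4 τ hτ h5 => ?_⟩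
    · by_contra h4
      rcases lt_or_gt_of_ne h4 with h5 | h5
      · exact h1 (Or.inr ⟨x, hx.1, y, hy.1, h5, hx.2, hy.2⟩)
      · exact h1 (Or.inr ⟨y, hy.1, x, hx.1, h5, hy.2, hx.2⟩)
    · subst h5
      exact h4 (near hκ (hφ e he).2 hτ h2 h3)

end P073.STR
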