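import Vale.Agent.P073Z.STR.Sk
import Vale.Agent.P073Z.A2.PL
import Vale.Agent.P073Z.SHELL.A

/-!
# The shear inside a lens
-/

open Set Metric Topology Filter

namespace P073.STR

namespace Tent

/-- the height function -/
noncomputable def ht (σ b a n : ℝ) : ℝ :=
  max 0 (min (min (a / σ) ((1 / 2 - a) / (1 / 2 - σ))) (2 / (b * σ) * (b * a - n)))

variable {σ b a n : ℝ}

theorem ht_one (hσ : 0 < σ) (hσ' : σ ≤ 1 / 4) (hb : 0 < b) {t : ℝ} (h0 : 0 ≤ t) (h1 : t ≤ 1)
    (ha : a = t * σ) (hn : n ≤ t * (b * σ / 100)) : ht σ b a n = t := by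
  have e1 : a / σ = t := by rw [ha]; field_simp
  have e2 : t ≤ (1 / 2 - a) / (1 / 2 - σ) := by
    rw [le_div_iff₀ (by linarith), ha]
    nlinarith
  have e3 : t ≤ 2 / (b * σ) * (b * a - n) := by
    rw [div_mul_eq_mul_div, le_div_iff₀ (by positivity), ha]
    nlinarith [mul_nonneg h0 (mul_pos hb hσ).le]
  rw [ht, e1, min_eq_left e2, min_eq_left e3, max_eq_right h0]

theorem ht_two (hσ : 0 < σ) (hσ' : σ ≤ 1 / 4) (hb : 0 < b) {u : ℝ} (h0 : 0 ≤ u) (h1 : u ≤ 1)
    (ha : a = u * σ + (1 - u) * (1 / 2)) (hn : n ≤ b * σ / 100) : ht σ b a n = u := by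
  have h3 : (1 / 2 - σ) ≠ 0 := by linarith
  have e1 : (1 / 2 - a) / (1 / 2 - σ) = u := by
    rw [div_eq_iff h3, ha]
    ring
  have e0 : σ ≤ a := by rw [ha]; nlinarith
  have e2 : u ≤ a / σ := by
    rw [le_div_iff₀ hσ]
    nlinarith
  have e3 : u ≤ 2 / (b * σ) * (b * a - n) := by
    rw [div_mul_eq_mul_div, le_div_iff₀ (by positivity)]
    nlinarith [mul_pos hb hσ, mul_le_mul_of_nonneg_left e0 hb.le]
  rw [ht, e1, min_eq_right e2, min_eq_left e3, max_eq_right h0]

theorem ht_zero (hσ' : σ ≤ 1 / 4) (ha : 1 / 2 ≤ a) : ht σ b a n = 0 := by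
  refine max_eq_left ((min_le_left _ _).trans ((min_le_right _ _).trans ?_))
  exact div_nonpos_of_nonpos_of_nonneg (by linarith) (by linarith)

theorem ht_out (hσ : 0 < σ) (hσ' : σ ≤ 1 / 4) (hb : 0 < b) (h : b * min a (1 - a) ≤ n) :
    ht σ b a n = 0 := by
  by_cases ha : 1 / 2 ≤ a
  · exact ht_zero hσ' ha
  rw [min_eq_left (by linarith)] at h
  refine max_eq_left ((min_le_right _ _).trans ?_)
  exact mul_nonpos_of_nonneg_of_nonpos (by positivity) (by linarith)

theorem ht_lip (hσ : 0 < σ) (hσ' : σ ≤ 1 / 4) {k s D a' n' : ℝ} (hs : 0 < s) (hk : 0 < k)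
    (hk' : k ≤ 1) (ha : s * |a - a'| ≤ D) (hn : |n - n'| ≤ 2 * D) :
    |ht σ (k * s) a n - ht σ (k * s) a' n'| * (k * s * σ) ≤ 6 * D := by
  have hD : 0 ≤ D := le_trans (by positivity) ha
  have hp : 0 < k * s * σ := by positivity
  rw [← le_div_iff₀ hp]
  have hks : k * (s * |a - a'|) ≤ D := (mul_le_of_le_one_left (by positivity) hk').trans ha
  refine (abs_max_sub_max_le_max _ _ _ _).trans (max_le (by simp; positivity) ?_)
  refine (abs_min_sub_min_le_max _ _ _ _).trans (max_le ?_ ?_)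
  · refine (abs_min_sub_min_le_max _ _ _ _).trans (max_le ?_ ?_)
    · rw [← sub_div, abs_div, abs_of_pos hσ, div_le_div_iff₀ hσ hp]
      nlinarith [mul_le_mul_of_nonneg_right hks hσ.le, mul_nonneg hD hσ.le]
    · have h3 : 0 < 1 / 2 - σ := by linarith
      have e : 1 / 2 - a - (1 / 2 - a') = -(a - a') := by ring
      rw [← sub_div, abs_div, abs_of_pos h3, div_le_div_iff₀ h3 hp, e, abs_neg]
      nlinarith [mul_le_mul_of_nonneg_right hks hσ.le, mul_nonneg hD hσ.le]
  · rw [← mul_sub, abs_mul, abs_of_pos (by positivity : 0 < 2 / (k * s * σ)), div_mul_eq_mul_div,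
      div_le_div_iff_of_pos_right hp]
    have e : k * s * a - n - (k * s * a' - n') = k * s * (a - a') - (n - n') := by ring
    have := abs_sub (k * s * (a - a')) (n - n')
    rw [abs_mul, abs_of_pos (by positivity : 0 < k * s)] at this
    rw [e]
    nlinarith

theorem ht_pl (σ b : ℝ) {a n : E3 → ℝ} (ha : PLOn a univ) (hn : PLOn n univ) :
    PLOn (fun z => ht σ b (a z) (n z)) univ := by
  have hu : ConicalSet (univ : Set E3) := A2.conicalSet_univ
  refine A2.pl_max (A2.pl_const 0 hu) (A2.pl_min (A2.pl_min ?_ ?_)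
    (A2.pl_mul _ (A2.pl_sub (A2.pl_mul b ha) hn)))
  · exact A2.pl_congr (A2.pl_mul σ⁻¹ ha) fun z _ => div_eq_inv_mul _ _
  · exact A2.pl_congr (A2.pl_mul (1 / 2 - σ)⁻¹ (A2.pl_sub (A2.pl_const (1 / 2 : ℝ) hu) ha))
      fun z _ => div_eq_inv_mul _ _

theorem pl_smul_const {a : E3 → ℝ} (ha : PLOn a univ) (w : E3) :
    PLOn (fun z => a z • w) univ :=
  A2.pl_comp_univ (A2.pl_clm (ContinuousLinearMap.toSpanSingleton ℝ w) A2.conicalSet_univ) ha

end Tent

open Tent

theorem tent_of (hN : NEARID) : TENT := by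
  intro c d q₀ q₁ lam s k σ hd hl hs hsd hk hk' hσ hσ' h0 h1 w0 w1
  have hu : ConicalSet (univ : Set E3) := A2.conicalSet_univ
  set T : E3 →L[ℝ] E3 := ContinuousLinearMap.id ℝ E3 - lam.smulRight d with hT
  have hTa : ∀ u, T u = u - lam u • d := fun u => rfl
  have hTd : T d = 0 := by rw [hTa, hd, one_smul, sub_self]
  have hTn : ∀ u, ‖T u‖ ≤ 2 * ‖u‖ := by
    intro u
    rw [hTa]
    refine (norm_sub_le _ _).trans ?_
    rw [norm_smul, Real.norm_eq_abs]
    linarith [hl u, mul_comm ‖d‖ |lam u|]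
  rw [← hTa] at w0 w1
  have hb : 0 < k * s := by positivity
  have w0' : ‖T (q₀ - c)‖ ≤ k * s * σ / 100 := w0.trans (le_of_eq (by ring))
  have w1' : ‖T (q₁ - c)‖ ≤ k * s * σ / 100 := w1.trans (le_of_eq (by ring))
  set r0 : E3 → ℝ := fun z => ht σ (k * s) (lam (z - c)) ‖T (z - c)‖ with hr0
  set r1 : E3 → ℝ := fun z => ht σ (k * s) (1 - lam (z - c)) ‖T (z - c)‖ with hr1
  have pc : PLOn (fun z : E3 => z - c) univ := A2.pl_sub (A2.pl_id hu) (A2.pl_const c hu)
  have pa : PLOn (fun z : E3 => lam (z - c)) univ := A2.pl_comp_univ (A2.pl_clm lam hu) pc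
  have pn : PLOn (fun z : E3 => ‖T (z - c)‖) univ :=
    A2.pl_comp_univ (g := fun x : E3 => ‖x‖) ⟨continuous_norm.continuousOn, Sh.conicalOn_norm_pi⟩
      (A2.pl_comp_univ (A2.pl_clm T hu) pc)
  have pφ : PLOn (fun z => -(r0 z • T (q₀ - c) + r1 z • T (q₁ - c))) univ :=
    A2.pl_neg (A2.pl_add (pl_smul_const (ht_pl _ _ pa pn) _)
      (pl_smul_const (ht_pl _ _ (A2.pl_sub (A2.pl_const (1 : ℝ) hu) pa) pn) _))
  have la : ∀ z z' : E3, s * |lam (z - c) - lam (z' - c)| ≤ ‖z - z'‖ := by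
    intro z z'
    rw [← map_sub, sub_sub_sub_cancel_right]
    exact (mul_le_mul_of_nonneg_right hsd (abs_nonneg _)).trans (hl _)
  have ln : ∀ z z' : E3, |‖T (z - c)‖ - ‖T (z' - c)‖| ≤ 2 * ‖z - z'‖ := by
    intro z z'
    refine (abs_norm_sub_norm_le _ _).trans ?_
    rw [← map_sub, sub_sub_sub_cancel_right]
    exact hTn _
  have lφ : LipschitzWith (1 / 2) fun z => -(r0 z • T (q₀ - c) + r1 z • T (q₁ - c)) := by
    refine LipschitzWith.of_dist_le_mul fun z z' => ?_
    have a0 : |r0 z - r0 z'| * (k * s * σ) ≤ 6 * ‖z - z'‖ :=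
      ht_lip hσ hσ' hs hk hk' (la z z') (ln z z')
    have a1 : |r1 z - r1 z'| * (k * s * σ) ≤ 6 * ‖z - z'‖ := by
      refine ht_lip hσ hσ' hs hk hk' ?_ (ln z z')
      rw [sub_sub_sub_cancel_left, abs_sub_comm]
      exact la z z'
    have e : r0 z • T (q₀ - c) + r1 z • T (q₁ - c) - (r0 z' • T (q₀ - c) + r1 z' • T (q₁ - c)) =
        (r0 z - r0 z') • T (q₀ - c) + (r1 z - r1 z') • T (q₁ - c) := by
      rw [sub_smul, sub_smul]
      abel
    rw [dist_neg_neg, dist_eq_norm, dist_eq_norm, e]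
    refine (norm_add_le _ _).trans ?_
    rw [norm_smul, norm_smul, Real.norm_eq_abs, Real.norm_eq_abs]
    have b0 := mul_le_mul_of_nonneg_left w0' (abs_nonneg (r0 z - r0 z'))
    have b1 := mul_le_mul_of_nonneg_left w1' (abs_nonneg (r1 z - r1 z'))
    have := norm_nonneg (z - z')
    push_cast
    linarith
  obtain ⟨Ψ, hΨ⟩ := hN pφ.2 lφ
  refine ⟨Ψ, fun z hz => ?_, ?_⟩
  · have hz' : k * s * min (lam (z - c)) (1 - lam (z - c)) ≤ ‖T (z - c)‖ := not_lt.1 hz
    have e0 : r0 z = 0 := ht_out hσ hσ' hb hz'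
    have e1 : r1 z = 0 := ht_out hσ hσ' hb (by rwa [sub_sub_cancel, min_comm])
    rw [hΨ, e0, e1]
    simp
  have hm : c + (1 / 2 : ℝ) • d - c = (1 / 2 : ℝ) • d := add_sub_cancel_left _ _
  have comb : ∀ (x y : E3) (u : ℝ), u • x + (1 - u) • y - c = u • (x - c) + (1 - u) • (y - c) := by
    intro x y u
    module
  have key : ∀ z ∈ segment ℝ c q₀ ∪ segment ℝ q₀ (c + (1 / 2 : ℝ) • d) ∪
      segment ℝ (c + (1 / 2 : ℝ) • d) q₁ ∪ segment ℝ q₁ (c + d),
      T (z - c) = r0 z • T (q₀ - c) + r1 z • T (q₁ - c) ∧ lam (z - c) ∈ Icc (0 : ℝ) 1 := by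
    rintro z (((hz | hz) | hz) | hz)
    · rw [segment_symm] at hz
      obtain ⟨u, v, hu0, hv0, huv, rfl⟩ := hz
      obtain rfl : v = 1 - u := by linarith
      have e1 : lam (u • q₀ + (1 - u) • c - c) = u * σ := by
        rw [comb, sub_self, smul_zero, add_zero, map_smul, h0, smul_eq_mul]
      have e2 : T (u • q₀ + (1 - u) • c - c) = u • T (q₀ - c) := by
        rw [comb, sub_self, smul_zero, add_zero, map_smul]
      have e3 : r0 (u • q₀ + (1 - u) • c) = u := by
        refine ht_one hσ hσ' hb hu0 (by linarith) e1 ?_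
        rw [e2, norm_smul, Real.norm_of_nonneg hu0]
        exact mul_le_mul_of_nonneg_left w0' hu0
      have e4 : r1 (u • q₀ + (1 - u) • c) = 0 := ht_zero hσ' (by rw [e1]; nlinarith)
      rw [e3, e4, e2, e1]
      exact ⟨by simp, by positivity, by nlinarith⟩
    · obtain ⟨u, v, hu0, hv0, huv, rfl⟩ := hz
      obtain rfl : v = 1 - u := by linarith
      have e1 : lam (u • q₀ + (1 - u) • (c + (1 / 2 : ℝ) • d) - c) = u * σ + (1 - u) * (1 / 2) := by
        rw [comb, hm, map_add, map_smul, map_smul, map_smul, h0, hd]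
        simp
      have e2 : T (u • q₀ + (1 - u) • (c + (1 / 2 : ℝ) • d) - c) = u • T (q₀ - c) := by
        rw [comb, hm, map_add, map_smul, map_smul, map_smul, hTd]
        simp
      have e3 : r0 (u • q₀ + (1 - u) • (c + (1 / 2 : ℝ) • d)) = u := by
        refine ht_two hσ hσ' hb hu0 (by linarith) e1 ?_
        rw [e2, norm_smul, Real.norm_of_nonneg hu0]
        exact (mul_le_of_le_one_left (norm_nonneg _) (by linarith)).trans w0'
      have e4 : r1 (u • q₀ + (1 - u) • (c + (1 / 2 : ℝ) • d)) = 0 :=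
        ht_zero hσ' (by rw [e1]; nlinarith)
      rw [e3, e4, e2, e1]
      exact ⟨by simp, by positivity, by nlinarith⟩
    · rw [segment_symm] at hz
      obtain ⟨u, v, hu0, hv0, huv, rfl⟩ := hz
      obtain rfl : v = 1 - u := by linarith
      have e1 : lam (u • q₁ + (1 - u) • (c + (1 / 2 : ℝ) • d) - c) =
          u * (1 - σ) + (1 - u) * (1 / 2) := by
        rw [comb, hm, map_add, map_smul, map_smul, map_smul, h1, hd]
        simp
      have e2 : T (u • q₁ + (1 - u) • (c + (1 / 2 : ℝ) • d) - c) = u • T (q₁ - c) := by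
        rw [comb, hm, map_add, map_smul, map_smul, map_smul, hTd]
        simp
      have e3 : r1 (u • q₁ + (1 - u) • (c + (1 / 2 : ℝ) • d)) = u := by
        refine ht_two hσ hσ' hb hu0 (by linarith) (by rw [e1]; ring) ?_
        rw [e2, norm_smul, Real.norm_of_nonneg hu0]
        exact (mul_le_of_le_one_left (norm_nonneg _) (by linarith)).trans w1'
      have e4 : r0 (u • q₁ + (1 - u) • (c + (1 / 2 : ℝ) • d)) = 0 :=
        ht_zero hσ' (by rw [e1]; nlinarith)
      rw [e3, e4, e2, e1]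
      exact ⟨by simp, by nlinarith, by nlinarith⟩
    · obtain ⟨u, v, hu0, hv0, huv, rfl⟩ := hz
      obtain rfl : v = 1 - u := by linarith
      have e1 : lam (u • q₁ + (1 - u) • (c + d) - c) = u * (1 - σ) + (1 - u) := by
        rw [comb, add_sub_cancel_left, map_add, map_smul, map_smul, h1, hd]
        simp
      have e2 : T (u • q₁ + (1 - u) • (c + d) - c) = u • T (q₁ - c) := by
        rw [comb, add_sub_cancel_left, map_add, map_smul, map_smul, hTd]
        simp
      have e3 : r1 (u • q₁ + (1 - u) • (c + d)) = u := by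
        refine ht_one hσ hσ' hb hu0 (by linarith) (by rw [e1]; ring) ?_
        rw [e2, norm_smul, Real.norm_of_nonneg hu0]
        exact mul_le_mul_of_nonneg_left w1' hu0
      have e4 : r0 (u • q₁ + (1 - u) • (c + d)) = 0 := ht_zero hσ' (by rw [e1]; nlinarith)
      rw [e3, e4, e2, e1]
      exact ⟨by simp, by nlinarith, by nlinarith⟩
  have val : ∀ z ∈ segment ℝ c q₀ ∪ segment ℝ q₀ (c + (1 / 2 : ℝ) • d) ∪
      segment ℝ (c + (1 / 2 : ℝ) • d) q₁ ∪ segment ℝ q₁ (c + d),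
      Ψ.toFun z = c + lam (z - c) • d := by
    intro z hz
    rw [hΨ, ← (key z hz).1, hTa]
    abel
  have hseg : segment ℝ c (c + d) = (fun t : ℝ => c + t • d) '' Icc 0 1 := by
    rw [segment_eq_image']
    simp only [add_sub_cancel_left]
  rw [hseg]
  refine Subset.antisymm ?_ ?_
  · rintro _ ⟨z, hz, rfl⟩
    exact ⟨_, (key z hz).2, (val z hz).symm⟩
  · rintro _ ⟨t, ht, rfl⟩
    have sp : ∀ x y : E3, IsPreconnected (segment ℝ x y) := fun x y =>
      (convex_segment x y).isPreconnected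
    have hc1 := IsPreconnected.union q₀ (right_mem_segment ℝ _ _) (left_mem_segment ℝ _ _)
      (sp c q₀) (sp q₀ (c + (1 / 2 : ℝ) • d))
    have hc2 := IsPreconnected.union (c + (1 / 2 : ℝ) • d) (Or.inr (right_mem_segment ℝ _ _))
      (left_mem_segment ℝ _ _) hc1 (sp (c + (1 / 2 : ℝ) • d) q₁)
    have hc := IsPreconnected.union q₁ (Or.inr (right_mem_segment ℝ _ _))
      (left_mem_segment ℝ _ _) hc2 (sp q₁ (c + d))
    have := hc.intermediate_value (Or.inl (Or.inl (Or.inl (left_mem_segment ℝ _ _))))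
      (Or.inr (right_mem_segment ℝ _ _)) (pa.1.mono (subset_univ _))
    rw [sub_self, map_zero, add_sub_cancel_left, hd] at this
    obtain ⟨z, hz, e⟩ := this ht
    exact ⟨z, hz, by rw [val z hz]; exact congrArg (fun t => c + t • d) e⟩

end P073.STR
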