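import Vale.Agent.P073Z.STR.Sk
import Vale.Agent.P073Z.A2.PL

/-!
# The gauge of a box
-/

open Set Metric Topology Filter

namespace P073.STR

variable {h : Fin 3 × Bool → ℝ}

theorem bsg_mul_self (b : Bool) : bsg b * bsg b = 1 := by cases b <;> simp [bsg]

theorem abs_bsg (b : Bool) : |bsg b| = 1 := by cases b <;> simp [bsg]

theorem term_le_boxG (h : Fin 3 × Bool → ℝ) (u : E3) (k : Fin 3 × Bool) :
    bsg k.2 * u k.1 / h k ≤ boxG h u :=
  Finset.le_sup' (fun k : Fin 3 × Bool => bsg k.2 * u k.1 / h k) (Finset.mem_univ k)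

theorem exists_boxG (h : Fin 3 × Bool → ℝ) (u : E3) :
    ∃ k : Fin 3 × Bool, boxG h u = bsg k.2 * u k.1 / h k := by
  obtain ⟨k, -, hk⟩ := Finset.exists_mem_eq_sup' Finset.univ_nonempty
    (fun k : Fin 3 × Bool => bsg k.2 * u k.1 / h k)
  exact ⟨k, hk⟩

theorem boxG_le_iff (hh : ∀ k, 0 < h k) {u : E3} {a : ℝ} :
    boxG h u ≤ a ↔ ∀ k : Fin 3 × Bool, bsg k.2 * u k.1 ≤ a * h k := by
  constructor
  · intro H k
    exact (div_le_iff₀ (hh k)).1 ((term_le_boxG h u k).trans H)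
  · intro H
    obtain ⟨k, hk⟩ := exists_boxG h u
    rw [hk]
    exact (div_le_iff₀ (hh k)).2 (H k)

theorem boxG_lt_iff (hh : ∀ k, 0 < h k) {u : E3} {a : ℝ} :
    boxG h u < a ↔ ∀ k : Fin 3 × Bool, bsg k.2 * u k.1 < a * h k := by
  constructor
  · intro H k
    exact (div_lt_iff₀ (hh k)).1 ((term_le_boxG h u k).trans_lt H)
  · intro H
    obtain ⟨k, hk⟩ := exists_boxG h u
    rw [hk]
    exact (div_lt_iff₀ (hh k)).2 (H k)

theorem plOn_boxG (h : Fin 3 × Bool → ℝ) : PLOn (boxG h) univ := by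
  refine A2.pl_sup' Finset.univ Finset.univ_nonempty
    (f := fun (k : Fin 3 × Bool) (u : E3) => bsg k.2 * u k.1 / h k) fun k _ => ?_
  refine A2.pl_congr (A2.pl_mul (bsg k.2 / h k) (A2.pl_proj k.1 A2.conicalSet_univ)) ?_
  intro u _
  ring

theorem continuous_boxG (h : Fin 3 × Bool → ℝ) : Continuous (boxG h) :=
  continuousOn_univ.1 (plOn_boxG h).1

theorem boxG_smul (h : Fin 3 × Bool → ℝ) {t : ℝ} (ht : 0 ≤ t) (u : E3) :
    boxG h (t • u) = t * boxG h u := by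
  have key : ∀ k : Fin 3 × Bool,
      bsg k.2 * (t • u) k.1 / h k = t * (bsg k.2 * u k.1 / h k) := fun k => by
    rw [Pi.smul_apply, smul_eq_mul]
    ring
  apply le_antisymm
  · obtain ⟨k, hk⟩ := exists_boxG h (t • u)
    rw [hk, key]
    exact mul_le_mul_of_nonneg_left (term_le_boxG h u k) ht
  · obtain ⟨k, hk⟩ := exists_boxG h u
    rw [hk, ← key]
    exact term_le_boxG h (t • u) k

theorem exists_side (u : E3) (i : Fin 3) : ∃ b : Bool, bsg b * u i = |u i| := by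
  rcases le_total 0 (u i) with H | H
  · exact ⟨true, by simp [bsg, abs_of_nonneg H]⟩
  · exact ⟨false, by simp [bsg, abs_of_nonpos H]⟩

theorem boxG_nonneg (hh : ∀ k, 0 < h k) (u : E3) : 0 ≤ boxG h u := by
  obtain ⟨b, hb⟩ := exists_side u 0
  refine le_trans ?_ (term_le_boxG h u (0, b))
  rw [hb]
  exact div_nonneg (abs_nonneg _) (hh _).le

theorem le_boxG (hh : ∀ k, 0 < h k) {b : ℝ} (hb : ∀ k, h k ≤ b) (u : E3) :
    ‖u‖ ≤ b * boxG h u := by
  have h0 := boxG_nonneg hh u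
  have hb0 : 0 ≤ b := (hh (0, true)).le.trans (hb _)
  refine (pi_norm_le_iff_of_nonneg (mul_nonneg hb0 h0)).2 fun i => ?_
  obtain ⟨s, hs⟩ := exists_side u i
  have h1 := (boxG_le_iff hh).1 (le_refl (boxG h u)) (i, s)
  rw [Real.norm_eq_abs, ← hs, mul_comm b]
  exact h1.trans (mul_le_mul_of_nonneg_left (hb _) h0)

theorem boxG_le {a : ℝ} (ha : 0 < a) (hh : ∀ k, a ≤ h k) (u : E3) : a * boxG h u ≤ ‖u‖ := by
  have hp : ∀ k, 0 < h k := fun k => ha.trans_le (hh k)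
  rw [← le_div_iff₀' ha, boxG_le_iff hp]
  intro k
  have h1 : bsg k.2 * u k.1 ≤ ‖u‖ := by
    refine (le_abs_self _).trans ?_
    rw [abs_mul, abs_bsg, one_mul, ← Real.norm_eq_abs]
    exact norm_le_pi_norm u k.1
  refine h1.trans ?_
  rw [div_mul_eq_mul_div, le_div_iff₀ ha]
  exact mul_le_mul_of_nonneg_left (hh k) (norm_nonneg u)

theorem boxG_pos (hh : ∀ k, 0 < h k) {u : E3} (hu : u ≠ 0) : 0 < boxG h u := by
  obtain ⟨i, hi⟩ : ∃ i, u i ≠ 0 := Function.ne_iff.1 hu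
  obtain ⟨b, hb⟩ := exists_side u i
  refine lt_of_lt_of_le ?_ (term_le_boxG h u (i, b))
  rw [hb]
  exact div_pos (abs_pos.2 hi) (hh _)

theorem boxG_zero (h : Fin 3 × Bool → ℝ) : boxG h 0 = 0 := by
  have := boxG_smul h (le_refl (0 : ℝ)) 0
  rwa [zero_smul, zero_mul] at this

end P073.STR
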