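import Vale.Agent.P073Z.STR.Sk
import Vale.Agent.P073Z.SHELL.A

/-!
# Straightening: elementary geometry near a chord
-/

open Set Metric Topology Filter AffineMap

namespace P073.STR

/-- points conically close to the chord, seen from its first end -/
def ConeCh (c₀ c₁ : E3) (a : ℝ) : Set E3 :=
  {z | ∃ τ ∈ Icc (0:ℝ) 1, dist z (lineMap c₀ c₁ τ) ≤ a * τ}

/-- a symmetric lens around the chord -/
def LensS (c₀ c₁ : E3) (a : ℝ) : Set E3 :=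
  {z | ∃ τ ∈ Icc (0:ℝ) 1, dist z (lineMap c₀ c₁ τ) < a * τ ∧ dist z (lineMap c₀ c₁ τ) < a * (1 - τ)}

/-- a wire close to its chord which starts with a ray -/
def EndOK (X : Set E3) (c₀ c₁ : E3) (s w : ℝ) : Prop :=
  X ⊆ thickening (3 * (s * w ^ 4 / 10 ^ 6)) (segment ℝ c₀ c₁) ∧
  ∃ p, segment ℝ c₀ p ⊆ X ∧ s * w / 40 ≤ dist p c₀ ∧
    ∀ z ∈ X, z ∈ segment ℝ c₀ p ∨ s * w / 40 ≤ dist z c₀

theorem LensS.symm {c₀ c₁ : E3} {a : ℝ} : LensS c₀ c₁ a ⊆ LensS c₁ c₀ a := by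
  rintro z ⟨τ, hτ, h1, h2⟩
  refine ⟨1 - τ, ⟨by linarith [hτ.2], by linarith [hτ.1]⟩, ?_, ?_⟩
  · rw [lineMap_apply_one_sub]; exact h2
  · rw [lineMap_apply_one_sub, sub_sub_cancel]; exact h1

theorem LensS.cone {c₀ c₁ : E3} {a : ℝ} : LensS c₀ c₁ a ⊆ ConeCh c₀ c₁ a :=
  fun _ ⟨τ, hτ, h1, _⟩ => ⟨τ, hτ, h1.le⟩

theorem lineMap_mem {c₀ c₁ : E3} {τ : ℝ} (hτ : τ ∈ Icc (0:ℝ) 1) :
    lineMap c₀ c₁ τ ∈ segment ℝ c₀ c₁ := by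
  rw [segment_eq_image_lineMap]; exact mem_image_of_mem _ hτ

theorem LensS.near {c₀ c₁ : E3} {a : ℝ} (ha : 0 ≤ a) {z : E3} (hz : z ∈ LensS c₀ c₁ a) :
    ∃ y ∈ segment ℝ c₀ c₁, dist z y < a := by
  obtain ⟨τ, hτ, h1, -⟩ := hz
  exact ⟨_, lineMap_mem hτ, h1.trans_le (mul_le_of_le_one_right ha hτ.2)⟩

theorem dist_lineMap_first (c₀ c₁ : E3) {τ : ℝ} (hτ : 0 ≤ τ) :
    dist (lineMap c₀ c₁ τ) c₀ = τ * dist c₁ c₀ := by
  rw [dist_lineMap_left, Real.norm_of_nonneg hτ, dist_comm]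

theorem param_lower {c₀ c₁ z : E3} {s w τ : ℝ} (hs : 0 < s) (hw : 0 < w) (hw1 : w ≤ 1)
    (hd : w * dist c₁ c₀ ≤ s) (hτ : 0 ≤ τ)
    (hz : dist z (lineMap c₀ c₁ τ) < 3 * (s * w ^ 4 / 10 ^ 6)) (hfar : s * w / 40 ≤ dist z c₀) :
    w ^ 2 / 50 ≤ τ := by
  have h1 := dist_triangle z (lineMap c₀ c₁ τ) c₀
  rw [dist_lineMap_first c₀ c₁ hτ] at h1
  have h2 : w ^ 4 ≤ w := by simpa using pow_le_pow_of_le_one hw.le hw1 (show 1 ≤ 4 by norm_num)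
  have h3 : s * w ^ 4 ≤ s * w := mul_le_mul_of_nonneg_left h2 hs.le
  have h4 : s * w / 50 ≤ τ * dist c₁ c₀ := by linarith [mul_pos hs hw]
  have h5 : w * (s * w / 50) ≤ τ * s := by
    calc w * (s * w / 50) ≤ w * (τ * dist c₁ c₀) := mul_le_mul_of_nonneg_left h4 hw.le
      _ = τ * (w * dist c₁ c₀) := by ring
      _ ≤ τ * s := mul_le_mul_of_nonneg_left hd hτ
  have h6 : w ^ 2 / 50 * s ≤ τ * s := by linarith [show w * (s * w / 50) = w ^ 2 / 50 * s by ring]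
  exact le_of_mul_le_mul_right h6 hs

theorem exists_param {c₀ c₁ z : E3} {a : ℝ} (hz : z ∈ thickening a (segment ℝ c₀ c₁)) :
    ∃ τ ∈ Icc (0:ℝ) 1, dist z (lineMap c₀ c₁ τ) < a := by
  obtain ⟨y, hy, hzy⟩ := mem_thickening_iff.1 hz
  rw [segment_eq_image_lineMap] at hy
  obtain ⟨τ, hτ, rfl⟩ := hy
  exact ⟨τ, hτ, hzy⟩

theorem EndOK.cone {X : Set E3} {c₀ c₁ : E3} {s w : ℝ} (h : EndOK X c₀ c₁ s w) (hs : 0 < s)
    (hw : 0 < w) (hw1 : w ≤ 1) (hd : w * dist c₁ c₀ ≤ s) : X ⊆ ConeCh c₀ c₁ (s * w ^ 2 / 1000) := by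
  obtain ⟨h1, p, hp, hpf, hX⟩ := h
  have far : ∀ z ∈ X, s * w / 40 ≤ dist z c₀ → z ∈ ConeCh c₀ c₁ (s * w ^ 2 / 1000) := by
    intro z hz hf
    obtain ⟨τ, hτ, hzτ⟩ := exists_param (h1 hz)
    have h2 := param_lower hs hw hw1 hd hτ.1 hzτ hf
    refine ⟨τ, hτ, hzτ.le.trans ?_⟩
    have h3 : s * w ^ 2 / 1000 * (w ^ 2 / 50) ≤ s * w ^ 2 / 1000 * τ :=
      mul_le_mul_of_nonneg_left h2 (by positivity)
    have h4 : 0 < s * w ^ 4 := by positivity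
    linarith [show s * w ^ 2 / 1000 * (w ^ 2 / 50) = s * w ^ 4 / 50000 by ring]
  intro z hz
  rcases hX z hz with h | h
  · obtain ⟨τ, hτ, hpτ⟩ := far p (hp (right_mem_segment _ _ _)) hpf
    rw [segment_eq_image_lineMap] at h
    obtain ⟨μ, hμ, rfl⟩ := h
    refine ⟨μ * τ, ⟨mul_nonneg hμ.1 hτ.1, mul_le_one₀ hμ.2 hτ.1 hτ.2⟩, ?_⟩
    have e : (lineMap c₀ p μ : E3) - lineMap c₀ c₁ (μ * τ) = μ • (p - lineMap c₀ c₁ τ) := by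
      simp only [lineMap_apply, vsub_eq_sub, vadd_eq_add]
      module
    rw [dist_eq_norm, e, norm_smul, Real.norm_of_nonneg hμ.1, ← dist_eq_norm]
    calc μ * dist p (lineMap c₀ c₁ τ) ≤ μ * (s * w ^ 2 / 1000 * τ) :=
          mul_le_mul_of_nonneg_left hpτ hμ.1
      _ = _ := by ring
  · exact far z hz h

theorem cone_disjoint_lens {c₀ c₁ c₂ : E3} {s w a : ℝ} (hs : 0 < s) (hw : 0 < w) (hw1 : w ≤ 1)
    (hd : w * dist c₁ c₀ ≤ s) (hd' : s ≤ dist c₂ c₀) (ha : a ≤ s * w ^ 2 / 4)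
    (hang : ∀ τ ∈ Icc (0:ℝ) 1, ∀ y ∈ segment ℝ c₀ c₂, τ * (s * w) ≤ dist (lineMap c₀ c₁ τ) y) :
    Disjoint (ConeCh c₀ c₁ a) (LensS c₀ c₂ (s * w ^ 2 / 4)) := by
  rw [disjoint_left]
  rintro z ⟨τ, hτ, h1⟩ ⟨σ, hσ, h2, -⟩
  have h3 := hang τ hτ _ (lineMap_mem (c₀ := c₀) (c₁ := c₂) hσ)
  set D := dist (lineMap c₀ c₁ τ : E3) (lineMap c₀ c₂ σ) with hD
  have h4 : D ≤ dist z (lineMap c₀ c₁ τ) + dist z (lineMap c₀ c₂ σ) := dist_triangle_left _ _ _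
  have h5 : σ * dist c₂ c₀ ≤ D + τ * dist c₁ c₀ := by
    rw [← dist_lineMap_first c₀ c₂ hσ.1, ← dist_lineMap_first c₀ c₁ hτ.1, hD, dist_comm
      (lineMap c₀ c₁ τ : E3) (lineMap c₀ c₂ σ)]
    exact dist_triangle _ _ _
  have hD0 : 0 ≤ D := dist_nonneg
  have hw2 : w ^ 2 ≤ 1 := pow_le_one₀ hw.le hw1
  have h6 : σ * s ≤ D + τ * dist c₁ c₀ := (mul_le_mul_of_nonneg_left hd' hσ.1).trans h5
  have h7 : w ^ 2 * (σ * s) ≤ 2 * D := by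
    have e1 : w ^ 2 * (σ * s) ≤ w ^ 2 * (D + τ * dist c₁ c₀) :=
      mul_le_mul_of_nonneg_left h6 (by positivity)
    have e2 : w ^ 2 * D ≤ D := mul_le_of_le_one_left hD0 hw2
    have e3 : τ * w * (w * dist c₁ c₀) ≤ τ * w * s :=
      mul_le_mul_of_nonneg_left hd (mul_nonneg hτ.1 hw.le)
    nlinarith
  have h8 : a * τ ≤ D / 4 := by
    have e1 : a * τ ≤ s * w ^ 2 / 4 * τ := mul_le_mul_of_nonneg_right ha hτ.1
    have e2 : τ * (s * w) * w ≤ τ * (s * w) :=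
      mul_le_of_le_one_right (mul_nonneg hτ.1 (mul_pos hs hw).le) hw1
    nlinarith
  nlinarith

theorem cone_inter {c₀ c₁ z : E3} {a b : ℝ} (hab : a < b) (hz : z ∈ ConeCh c₀ c₁ a)
    (hang : ∀ τ ∈ Icc (0:ℝ) 1, τ * b ≤ dist (lineMap c₀ c₁ τ) z) : z = c₀ := by
  obtain ⟨τ, hτ, h1⟩ := hz
  have h2 := hang τ hτ
  rw [dist_comm] at h2
  have h3 : τ = 0 := by
    by_contra h0
    have := mul_lt_mul_of_pos_right hab (lt_of_le_of_ne hτ.1 (Ne.symm h0))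
    linarith
  rw [h3, mul_zero, lineMap_apply_zero] at h1
  exact dist_le_zero.1 h1

theorem exists_lam {d : E3} (hd : d ≠ 0) :
    ∃ lam : E3 →L[ℝ] ℝ, lam d = 1 ∧ ∀ u, ‖d‖ * |lam u| ≤ ‖u‖ := by
  obtain ⟨i, hi⟩ : ∃ i, ‖d i‖ = ‖d‖ := by
    obtain ⟨i, -, hi⟩ := Finset.exists_max_image Finset.univ (fun i => ‖d i‖) Finset.univ_nonempty
    exact ⟨i, le_antisymm (norm_le_pi_norm d i) ((pi_norm_le_iff_of_nonneg (norm_nonneg _)).2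
      fun j => hi j (Finset.mem_univ j))⟩
  have h0 : 0 < ‖d‖ := norm_pos_iff.2 hd
  have hdi : d i ≠ 0 := fun h => by rw [h, norm_zero] at hi; linarith
  refine ⟨(d i)⁻¹ • ContinuousLinearMap.proj i, by simp [hdi], fun u => ?_⟩
  have : ((d i)⁻¹ • ContinuousLinearMap.proj (R := ℝ) (φ := fun _ : Fin 3 => ℝ) i) u =
    (d i)⁻¹ * u i := rfl
  rw [this, abs_mul, abs_inv, ← Real.norm_eq_abs (d i), hi, ← mul_assoc, mul_inv_cancel₀ h0.ne',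
    one_mul]
  exact norm_le_pi_norm u i

end P073.STR
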