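import Vale.Agent.P073Z.STR.Geo

/-!
# Straightening: the thin body around the middle of a chord
-/

open Set Metric Topology Filter AffineMap

namespace P073.STR

theorem norm_transv {d : E3} {lam : E3 →L[ℝ] ℝ} (hl : ∀ u, ‖d‖ * |lam u| ≤ ‖u‖) (u : E3) :
    ‖u - lam u • d‖ ≤ 2 * ‖u‖ := by
  have h1 := norm_sub_le u (lam u • d)
  rw [norm_smul, Real.norm_eq_abs, mul_comm] at h1
  linarith [hl u]

theorem EndOK.half {X : Set E3} {c₀ c₁ : E3} {s w : ℝ} (h : EndOK X c₀ c₁ s w) (hs : 0 < s)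
    (hw : 0 < w) (hw1 : w ≤ 1) (hd : w * dist c₁ c₀ ≤ s) (hd' : s ≤ dist c₁ c₀)
    {lam : E3 →L[ℝ] ℝ} (hl1 : lam (c₁ - c₀) = 1) (hl : ∀ u, ‖c₁ - c₀‖ * |lam u| ≤ ‖u‖) :
    (∀ z ∈ X, ‖(z - c₀) - lam (z - c₀) • (c₁ - c₀)‖ ≤ 6 * (s * w ^ 4 / 10 ^ 6)) ∧
    (∃ y ∈ X, lam (y - c₀) = w ^ 2 / 100) ∧
    ∀ σ ∈ Ioo 0 (w ^ 2 / 100), ∃ q, lam (q - c₀) = σ ∧
      ‖(q - c₀) - lam (q - c₀) • (c₁ - c₀)‖ ≤ w ^ 2 / 4 / 100 * s * σ ∧
      {z ∈ X | lam (z - c₀) ≤ σ} = segment ℝ c₀ q ∧ {z ∈ X | lam (z - c₀) = σ} = {q} := by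
  obtain ⟨h1, p, hp, hpf, hX⟩ := h
  have hdec : ∀ (z : E3) (τ : ℝ), z - c₀ = (z - lineMap c₀ c₁ τ) + τ • (c₁ - c₀) := fun z τ => by
    simp only [lineMap_apply, vsub_eq_sub, vadd_eq_add]
    module
  have hT : ∀ z ∈ X, ‖(z - c₀) - lam (z - c₀) • (c₁ - c₀)‖ ≤ 6 * (s * w ^ 4 / 10 ^ 6) := by
    intro z hz
    obtain ⟨τ, -, hτ⟩ := exists_param (h1 hz)
    have e : (z - c₀) - lam (z - c₀) • (c₁ - c₀) =
        (z - lineMap c₀ c₁ τ) - lam (z - lineMap c₀ c₁ τ) • (c₁ - c₀) := by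
      conv_lhs => rw [hdec z τ]
      rw [map_add, map_smul, hl1]
      module
    rw [e]
    have := norm_transv hl (z - lineMap c₀ c₁ τ)
    rw [← dist_eq_norm z] at this
    linarith
  have hw2 : w ^ 2 ≤ 1 := pow_le_one₀ hw.le hw1
  have hsig : ∀ z ∈ X, s * w / 40 ≤ dist z c₀ → w ^ 2 / 100 ≤ lam (z - c₀) := by
    intro z hz hf
    obtain ⟨τ, hτ, hzτ⟩ := exists_param (h1 hz)
    have h2 := param_lower hs hw hw1 hd hτ.1 hzτ hf
    have h3 : lam (z - c₀) = lam (z - lineMap c₀ c₁ τ) + τ := by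
      conv_lhs => rw [hdec z τ]
      rw [map_add, map_smul, hl1, smul_eq_mul, mul_one]
    have h4 := hl (z - lineMap c₀ c₁ τ)
    rw [← dist_eq_norm, ← dist_eq_norm] at h4
    have h5 : s * |lam (z - lineMap c₀ c₁ τ)| ≤ s * (3 * w ^ 4 / 10 ^ 6) := by
      have := mul_le_mul_of_nonneg_right hd' (abs_nonneg (lam (z - lineMap c₀ c₁ τ)))
      linarith
    have h6 := le_of_mul_le_mul_left h5 hs
    have h7 : w ^ 4 ≤ w ^ 2 := by nlinarith [sq_nonneg w]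
    linarith [neg_abs_le (lam (z - lineMap c₀ c₁ τ)), sq_nonneg w]
  have hpX : p ∈ X := hp (right_mem_segment _ _ _)
  have hθ : 0 < w ^ 2 / 100 := by positivity
  have hpθ := hsig p hpX hpf
  have hp0 : 0 < lam (p - c₀) := hθ.trans_le hpθ
  have hlm : ∀ μ : ℝ, (lineMap c₀ p μ : E3) - c₀ = μ • (p - c₀) := fun μ => by
    simp only [lineMap_apply, vsub_eq_sub, vadd_eq_add, add_sub_cancel_right]
  have hlam : ∀ μ : ℝ, lam (lineMap c₀ p μ - c₀) = μ * lam (p - c₀) := fun μ => by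
    rw [hlm, map_smul, smul_eq_mul]
  refine ⟨hT, ⟨lineMap c₀ p (w ^ 2 / 100 / lam (p - c₀)), hp (lineMap_mem
    ⟨by positivity, (div_le_one hp0).2 hpθ⟩), by rw [hlam, div_mul_cancel₀ _ hp0.ne']⟩, ?_⟩
  intro σ hσ
  have hμ : σ / lam (p - c₀) ∈ Icc (0:ℝ) 1 :=
    ⟨div_nonneg hσ.1.le hp0.le, (div_le_one hp0).2 (hσ.2.le.trans hpθ)⟩
  have hq : lam (lineMap c₀ p (σ / lam (p - c₀)) - c₀) = σ := by
    rw [hlam, div_mul_cancel₀ _ hp0.ne']
  have hlow : ∀ z ∈ X, lam (z - c₀) ≤ σ → ∃ ν ∈ Icc (0:ℝ) 1, z = lineMap c₀ p ν := by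
    intro z hz hzσ
    rcases hX z hz with h | h
    · rw [segment_eq_image_lineMap] at h
      obtain ⟨ν, hν, rfl⟩ := h
      exact ⟨ν, hν, rfl⟩
    · linarith [hsig z hz h, hσ.2]
  refine ⟨lineMap c₀ p (σ / lam (p - c₀)), hq, ?_, ?_, ?_⟩
  · have e : (lineMap c₀ p (σ / lam (p - c₀)) : E3) - c₀ -
        lam (lineMap c₀ p (σ / lam (p - c₀)) - c₀) • (c₁ - c₀) =
        (σ / lam (p - c₀)) • ((p - c₀) - lam (p - c₀) • (c₁ - c₀)) := by
      rw [hlam, hlm]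
      module
    rw [e, norm_smul, Real.norm_of_nonneg hμ.1]
    have h2 : σ / lam (p - c₀) ≤ σ / (w ^ 2 / 100) := div_le_div_of_nonneg_left hσ.1.le hθ hpθ
    calc σ / lam (p - c₀) * ‖(p - c₀) - lam (p - c₀) • (c₁ - c₀)‖
        ≤ σ / (w ^ 2 / 100) * (6 * (s * w ^ 4 / 10 ^ 6)) :=
          mul_le_mul h2 (hT p hpX) (norm_nonneg _) (div_nonneg hσ.1.le hθ.le)
      _ = 6 / 10000 * (w ^ 2 * s * σ) := by field_simp; ring
      _ ≤ w ^ 2 / 4 / 100 * s * σ := by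
          have : 0 ≤ w ^ 2 * s * σ := mul_nonneg (by positivity) hσ.1.le
          linarith
  · ext z
    constructor
    · rintro ⟨hz, hzσ⟩
      obtain ⟨ν, hν, rfl⟩ := hlow z hz hzσ
      rw [hlam] at hzσ
      rw [segment_eq_image_lineMap]
      refine ⟨ν * lam (p - c₀) / σ, ⟨div_nonneg (mul_nonneg hν.1 hp0.le) hσ.1.le,
        (div_le_one hσ.1).2 hzσ⟩, ?_⟩
      rw [lineMap_lineMap_right]
      congr 1
      have := hσ.1.ne'
      field_simp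
    · intro hz
      rw [segment_eq_image_lineMap] at hz
      obtain ⟨ν, hν, rfl⟩ := hz
      rw [lineMap_lineMap_right]
      refine ⟨hp (lineMap_mem ⟨mul_nonneg hν.1 hμ.1, mul_le_one₀ hν.2 hμ.1 hμ.2⟩), ?_⟩
      rw [hlam, mul_assoc, div_mul_cancel₀ _ hp0.ne']
      exact mul_le_of_le_one_left hσ.1.le hν.2
  · ext z
    constructor
    · rintro ⟨hz, hzσ⟩
      obtain ⟨ν, hν, rfl⟩ := hlow z hz hzσ.le
      rw [hlam] at hzσ
      rw [mem_singleton_iff, ← hzσ, mul_div_cancel_right₀ _ hp0.ne']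
    · rintro rfl
      exact ⟨hp (lineMap_mem hμ), hq⟩

theorem lens_subset {c₀ c₁ : E3} {lam : E3 →L[ℝ] ℝ} {a : ℝ} (ha : 0 < a) :
    lens c₀ (c₁ - c₀) lam a ⊆ LensS c₀ c₁ a := by
  intro z hz
  have h0 : ‖(z - c₀) - lam (z - c₀) • (c₁ - c₀)‖ < a * min (lam (z - c₀)) (1 - lam (z - c₀)) := hz
  have h1 : 0 < min (lam (z - c₀)) (1 - lam (z - c₀)) :=
    (mul_pos_iff_of_pos_left ha).1 ((norm_nonneg _).trans_lt h0)
  have e : dist z (lineMap c₀ c₁ (lam (z - c₀))) = ‖(z - c₀) - lam (z - c₀) • (c₁ - c₀)‖ := by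
    rw [dist_eq_norm]
    congr 1
    simp only [lineMap_apply, vsub_eq_sub, vadd_eq_add]
    module
  rw [lt_min_iff] at h1
  refine ⟨lam (z - c₀), ⟨h1.1.le, by linarith [h1.2]⟩, ?_, ?_⟩ <;> rw [e]
  · exact h0.trans_le (mul_le_mul_of_nonneg_left (min_le_left _ _) ha.le)
  · exact h0.trans_le (mul_le_mul_of_nonneg_left (min_le_right _ _) ha.le)

theorem coneSetAt_singleton (m q : E3) : coneSetAt m {q} = segment ℝ m q := by
  rw [segment_eq_image_lineMap]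
  ext z
  constructor
  · rintro ⟨s, hs, x, rfl, rfl⟩
    exact ⟨s, hs, by simp [lineMap_apply, add_comm]⟩
  · rintro ⟨s, hs, rfl⟩
    exact ⟨s, hs, q, rfl, by simp [lineMap_apply, add_comm]⟩

theorem coneSetAt_pair (m q q' : E3) : coneSetAt m {q, q'} = segment ℝ m q ∪ segment ℝ m q' := by
  rw [← coneSetAt_singleton, ← coneSetAt_singleton]
  ext z
  constructor
  · rintro ⟨s, hs, x, rfl | rfl, rfl⟩
    · exact Or.inl ⟨s, hs, x, rfl, rfl⟩
    · exact Or.inr ⟨s, hs, x, rfl, rfl⟩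
  · rintro (⟨s, hs, x, rfl, rfl⟩ | ⟨s, hs, x, rfl, rfl⟩)
    · exact ⟨s, hs, x, Or.inl rfl, rfl⟩
    · exact ⟨s, hs, x, Or.inr rfl, rfl⟩

theorem edge_geom (hT : TENT) {X : Set E3} {c₀ c₁ : E3} {s w : ℝ} (h0 : EndOK X c₀ c₁ s w)
    (h1 : EndOK X c₁ c₀ s w) (hs : 0 < s) (hw : 0 < w) (hw1 : w ≤ 1) (hd : w * dist c₁ c₀ ≤ s)
    (hd' : s ≤ dist c₁ c₀) :
    ∃ (g : E3 → ℝ) (m : E3) (t₁ t₂ : ℝ), PLOn g univ ∧
      (∀ x, ∀ t : ℝ, 0 ≤ t → g (t • x) = t * g x) ∧ (∀ x, x ≠ 0 → 0 < g x) ∧ 0 < t₁ ∧ t₁ < t₂ ∧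
      (∀ z, g (z - m) ≤ t₂ → z ∈ LensS c₀ c₁ (s * w ^ 2 / 4)) ∧ (∃ y ∈ X, g (y - m) ≤ t₁) ∧
      ∀ t ∈ Ioo t₁ t₂, {y ∈ X | g (y - m) = t}.ncard = 2 ∧
        ∃ Ψ : ConHomeo (univ : Set E3) (univ : Set E3),
          (∀ z, z ∉ LensS c₀ c₁ (s * w ^ 2 / 4) → Ψ.toFun z = z) ∧
          Ψ.toFun '' ({y ∈ X | t ≤ g (y - m)} ∪ coneSetAt m {y ∈ X | g (y - m) = t}) =
            segment ℝ c₀ c₁ := by
  have hd0 : c₁ - c₀ ≠ 0 := fun h => by
    rw [dist_eq_norm, h, norm_zero] at hd'; linarith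
  obtain ⟨lam, hl1, hl⟩ := exists_lam hd0
  obtain ⟨a1, ⟨y, hy, a2⟩, a3⟩ := h0.half hs hw hw1 hd hd' hl1 hl
  obtain ⟨-, -, b3⟩ := h1.half hs hw hw1 (by rwa [dist_comm]) (by rwa [dist_comm]) (lam := -lam)
    (by rw [← neg_sub, map_neg, neg_apply, hl1, neg_neg])
    (fun u => by rw [norm_sub_rev, neg_apply, abs_neg]; exact hl u)
  have hflip : ∀ z, (-lam) (z - c₁) = 1 - lam (z - c₀) := fun z => by
    rw [neg_apply, show z - c₁ = (z - c₀) - (c₁ - c₀) by abel, map_sub, hl1]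
    ring
  set b := s * w ^ 4 / 1000 with hb
  have hb0 : 0 < b := by positivity
  have hw2 : w ^ 2 ≤ 1 := pow_le_one₀ hw.le hw1
  have hθ : 0 < w ^ 2 := by positivity
  let g : E3 → ℝ := fun u => max (2 * |lam u|) (b⁻¹ * ‖u - lam u • (c₁ - c₀)‖)
  let m : E3 := c₀ + (1 / 2 : ℝ) • (c₁ - c₀)
  have hg : ∀ z, g (z - m) =
      max (2 * |lam (z - c₀) - 1 / 2|) (b⁻¹ * ‖(z - c₀) - lam (z - c₀) • (c₁ - c₀)‖) := by
    intro z
    have e : z - m = (z - c₀) - (1 / 2 : ℝ) • (c₁ - c₀) := by simp only [m]; abel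
    have e2 : lam (z - m) = lam (z - c₀) - 1 / 2 := by
      rw [e, map_sub, map_smul, hl1, smul_eq_mul, mul_one]
    simp only [g]
    rw [e2, e]
    congr 3
    module
  have hsmall : ∀ z ∈ X, b⁻¹ * ‖(z - c₀) - lam (z - c₀) • (c₁ - c₀)‖ ≤ 1 / 2 := fun z hz => by
    rw [inv_mul_le_iff₀ hb0]
    linarith [a1 z hz]
  have hU : ConicalSet (univ : Set E3) := IsOpen.conicalSet isOpen_univ
  let L : E3 →L[ℝ] E3 := ContinuousLinearMap.id ℝ E3 - lam.smulRight (c₁ - c₀)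
  have hgc1 : ConicalOn (fun u => 2 * |lam u|) univ :=
    (Sh.conicalOn_abs (conicalOn_clm lam) lam.continuous.continuousOn).const_smul 2
  have hgc2 : ConicalOn (fun u => b⁻¹ * ‖u - lam u • (c₁ - c₀)‖) univ :=
    ((Sh.conicalOn_norm_pi.comp (conicalOn_clm L) (mapsTo_univ _ _)
      L.continuous.continuousOn)).const_smul b⁻¹
  refine ⟨g, m, 1 - 2 * (w ^ 2 / 100), 1 - w ^ 2 / 100, ⟨by fun_prop,
    hgc1.rmax hgc2 (by fun_prop) (by fun_prop)⟩, ?_, ?_, by linarith, by linarith, ?_,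
    ⟨y, hy, ?_⟩, ?_⟩
  · intro x t ht
    simp only [g]
    rw [map_smul, smul_eq_mul, abs_mul, abs_of_nonneg ht, mul_smul, ← smul_sub, norm_smul,
      Real.norm_of_nonneg ht, mul_max_of_nonneg _ _ ht]
    congr 1 <;> ring
  · intro x hx
    by_contra hcon
    simp only [g, not_lt, max_le_iff] at hcon
    have e1 : lam x = 0 := abs_nonpos_iff.1 (by linarith [hcon.1])
    have e2 := hcon.2
    rw [e1, zero_smul, sub_zero] at e2
    exact absurd e2 (not_le.2 (mul_pos (inv_pos.2 hb0) (norm_pos_iff.2 hx)))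
  · intro z hz
    rw [hg, max_le_iff, inv_mul_le_iff₀ hb0] at hz
    refine lens_subset (lam := lam) (by positivity) ?_
    have e1 := abs_le.1 (show |lam (z - c₀) - 1 / 2| ≤ (1 - w ^ 2 / 100) / 2 by linarith [hz.1])
    have e2 : w ^ 2 / 200 ≤ min (lam (z - c₀)) (1 - lam (z - c₀)) :=
      le_min (by linarith [e1.1]) (by linarith [e1.2])
    have e3 := mul_le_mul_of_nonneg_left e2 (show 0 ≤ s * w ^ 2 / 4 by positivity)
    have e4 : b * (1 - w ^ 2 / 100) ≤ b := mul_le_of_le_one_right hb0.le (by linarith)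
    have e5 : s * w ^ 2 / 4 * (w ^ 2 / 200) = 5 / 4 * b := by rw [hb]; ring
    show ‖(z - c₀) - lam (z - c₀) • (c₁ - c₀)‖ < _
    linarith [hz.2]
  · rw [hg]
    refine max_le ?_ (by linarith [hsmall y hy])
    rw [a2, abs_of_nonpos (by linarith)]
    linarith
  · intro t ht
    have hσ : (1 - t) / 2 ∈ Ioo 0 (w ^ 2 / 100) := ⟨by linarith [ht.2], by linarith [ht.1]⟩
    obtain ⟨q₀, p1, p2, p3, p4⟩ := a3 _ hσ
    obtain ⟨q₁, r1, r2, r3, r4⟩ := b3 _ hσ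
    simp only [hflip] at r1 r2 r3 r4
    have ht2 : 1 / 2 < t := by linarith [ht.1]
    have hle : {y ∈ X | t ≤ g (y - m)} = segment ℝ c₀ q₀ ∪ segment ℝ c₁ q₁ := by
      rw [← p3, ← r3]
      ext z
      constructor
      · rintro ⟨hz, h⟩
        rw [hg, le_max_iff] at h
        rcases h with h | h
        · rcases le_total (lam (z - c₀)) (1 / 2) with e | e
          · rw [abs_of_nonpos (by linarith)] at h
            exact Or.inl ⟨hz, by linarith⟩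
          · rw [abs_of_nonneg (by linarith)] at h
            exact Or.inr ⟨hz, by linarith⟩
        · linarith [hsmall z hz]
      · rintro (⟨hz, h⟩ | ⟨hz, h⟩) <;> refine ⟨hz, ?_⟩ <;> rw [hg] <;> refine le_max_of_le_left ?_
        · linarith [neg_abs_le (lam (z - c₀) - 1 / 2)]
        · linarith [le_abs_self (lam (z - c₀) - 1 / 2)]
    have heq : {y ∈ X | g (y - m) = t} = {q₀, q₁} := by
      rw [insert_eq, ← p4, ← r4]
      ext z
      constructor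
      · rintro ⟨hz, h⟩
        rw [hg] at h
        rcases max_eq_iff.1 h with h | h
        · rcases le_total (lam (z - c₀)) (1 / 2) with e | e
          · rw [abs_of_nonpos (by linarith)] at h
            exact Or.inl ⟨hz, by linarith [h.1]⟩
          · rw [abs_of_nonneg (by linarith)] at h
            exact Or.inr ⟨hz, by linarith [h.1]⟩
        · linarith [hsmall z hz, h.1]
      · rintro (⟨hz, h⟩ | ⟨hz, h⟩) <;> refine ⟨hz, ?_⟩ <;> rw [hg]
        · have e : 2 * |lam (z - c₀) - 1 / 2| = t := by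
            rw [abs_of_nonpos (by linarith)]; linarith
          rw [e, max_eq_left (by linarith [hsmall z hz])]
        · have e : 2 * |lam (z - c₀) - 1 / 2| = t := by
            rw [abs_of_nonneg (by linarith)]; linarith
          rw [e, max_eq_left (by linarith [hsmall z hz])]
    refine ⟨by rw [heq]; exact ncard_pair fun e => by rw [e] at p1; linarith, ?_⟩
    obtain ⟨Ψ, k1, k2⟩ := hT (c := c₀) (d := c₁ - c₀) (q₀ := q₀) (q₁ := q₁) (lam := lam) (s := s)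
      (k := w ^ 2 / 4) (σ := (1 - t) / 2) hl1 hl hs (by rwa [← dist_eq_norm]) (by positivity)
      (by linarith) hσ.1 (by linarith) p1 (by linarith) p2 (by
        refine le_trans (le_of_eq ?_) r2
        congr 1
        module)
    refine ⟨Ψ, fun z hz => k1 z fun h => hz ?_, ?_⟩
    · rw [show s * w ^ 2 / 4 = w ^ 2 / 4 * s by ring]
      exact lens_subset (by positivity) h
    · rw [add_sub_cancel] at k2
      rw [← k2, hle, heq, coneSetAt_pair, segment_symm ℝ q₀, segment_symm ℝ q₁ c₁]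
      congr 1
      ext z
      simp only [mem_union, m]
      tauto

end P073.STR
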