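import Vale.Agent.P073Z.STR.Sk
import Vale.Agent.P073Z.RCX2

/-!
# Straightening: successive local modifications; every vertex lies on an edge
-/

open Set Metric Topology Filter

namespace P073.STR

theorem seq {Q : RCx E3} {κ : Type} (s : Finset κ) (W : κ → Set E3)
    (hW : ∀ k ∈ s, ∀ k' ∈ s, k ≠ k' → Disjoint (W k) (W k')) {R₀ : Q.ι → Set E3}
    (h₀ : Realiz Q 2 R₀) (P : κ → Q.ι → Set E3 → Prop)
    (fin : ∀ k ∈ s, {i | Q.dim i ≤ 2 ∧ (R₀ i ∩ W k).Nonempty}.Finite)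
    (step : ∀ k ∈ s, ∀ R : Q.ι → Set E3, Realiz Q 2 R →
      (∀ j, Q.dim j ≤ 1 → R j ∩ W k = R₀ j ∩ W k) →
      (∀ j, Q.dim j ≤ 2 → (∀ k' ∈ s, k' ≠ k → Disjoint (R₀ j) (W k')) → R j = R₀ j) →
      {i | Q.dim i ≤ 2 ∧ (R i ∩ W k).Nonempty}.Finite →
      ∃ R' : Q.ι → Set E3, Realiz Q 2 R' ∧
        (∀ i, Q.dim i ≤ 2 → R' i ⊆ R i ∪ W k ∧ (Disjoint (R i) (W k) → R' i = R i)) ∧
        ∀ j, Q.dim j ≤ 1 → R' j \ W k = R j \ W k ∧ P k j (R' j ∩ W k)) :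
    ∃ R : Q.ι → Set E3, Realiz Q 2 R ∧
      (∀ i, Q.dim i ≤ 2 → (∀ z ∈ R i, z ∈ R₀ i ∨ ∃ k ∈ s, z ∈ W k ∧ (R₀ i ∩ W k).Nonempty) ∧
        ((∀ k ∈ s, Disjoint (R₀ i) (W k)) → R i = R₀ i)) ∧
      ∀ j, Q.dim j ≤ 1 → (∀ z, (∀ k ∈ s, z ∉ W k) → (z ∈ R j ↔ z ∈ R₀ j)) ∧
        ∀ k ∈ s, P k j (R j ∩ W k) := by
  classical
  suffices H : ∀ t : Finset κ, t ⊆ s → ∃ R : Q.ι → Set E3, Realiz Q 2 R ∧
      (∀ i, Q.dim i ≤ 2 → (∀ z ∈ R i, z ∈ R₀ i ∨ ∃ k ∈ t, z ∈ W k ∧ (R₀ i ∩ W k).Nonempty) ∧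
        ((∀ k ∈ t, Disjoint (R₀ i) (W k)) → R i = R₀ i)) ∧
      ∀ j, Q.dim j ≤ 1 → (∀ z, (∀ k ∈ t, z ∉ W k) → (z ∈ R j ↔ z ∈ R₀ j)) ∧
        ∀ k ∈ t, P k j (R j ∩ W k) from H s (Finset.Subset.refl s)
  intro t
  induction t using Finset.induction_on with
  | empty =>
    intro _
    exact ⟨R₀, h₀, fun i _ => ⟨fun z hz => Or.inl hz, fun _ => rfl⟩,
      fun j _ => ⟨fun _ _ => Iff.rfl, by simp⟩⟩
  | insert k t hkt ih =>
    intro hsub
    have hk : k ∈ s := hsub (Finset.mem_insert_self k t)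
    have hts : t ⊆ s := (Finset.subset_insert k t).trans hsub
    obtain ⟨R, hR, h2, h1⟩ := ih hts
    have hne : ∀ k' ∈ t, k' ≠ k := fun k' hk' e => hkt (e ▸ hk')
    have hout : ∀ z ∈ W k, ∀ k' ∈ t, z ∉ W k' := fun z hz k' hk' hz' =>
      disjoint_left.1 (hW k' (hts hk') k hk (hne k' hk')) hz' hz
    have hmeet : ∀ i, Q.dim i ≤ 2 → (R i ∩ W k).Nonempty → (R₀ i ∩ W k).Nonempty := by
      rintro i hi ⟨z, hz, hzW⟩
      rcases (h2 i hi).1 z hz with h | ⟨k', hk', hz', -⟩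
      · exact ⟨z, h, hzW⟩
      · exact absurd hz' (hout z hzW k' hk')
    obtain ⟨R', hR', g2, g1⟩ := step k hk R hR
      (fun j hj => by
        ext z
        exact ⟨fun h => ⟨((h1 j hj).1 z (hout z h.2)).1 h.1, h.2⟩,
          fun h => ⟨((h1 j hj).1 z (hout z h.2)).2 h.1, h.2⟩⟩)
      (fun j hj h => (h2 j hj).2 fun k' hk' => h k' (hts hk') (hne k' hk'))
      ((fin k hk).subset fun i hi => ⟨hi.1, hmeet i hi.1 hi.2⟩)
    refine ⟨R', hR', fun i hi => ⟨fun z hz => ?_, fun h => ?_⟩, fun j hj => ⟨fun z hz => ?_, ?_⟩⟩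
    · have hold : z ∈ R i → z ∈ R₀ i ∨ ∃ k' ∈ insert k t, z ∈ W k' ∧ (R₀ i ∩ W k').Nonempty :=
        fun h => ((h2 i hi).1 z h).imp id fun ⟨k', a, b⟩ => ⟨k', Finset.mem_insert_of_mem a, b⟩
      by_cases hd : Disjoint (R i) (W k)
      · exact hold ((g2 i hi).2 hd ▸ hz)
      · rcases (g2 i hi).1 hz with h | h
        · exact hold h
        · exact Or.inr ⟨k, Finset.mem_insert_self k t, h,
            hmeet i hi (not_disjoint_iff_nonempty_inter.1 hd)⟩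
    · have e : R i = R₀ i := (h2 i hi).2 fun k' hk' => h k' (Finset.mem_insert_of_mem hk')
      rw [(g2 i hi).2 (e ▸ h k (Finset.mem_insert_self k t)), e]
    · have hzk := hz k (Finset.mem_insert_self k t)
      rw [← (h1 j hj).1 z fun k' hk' => hz k' (Finset.mem_insert_of_mem hk')]
      have e := (g1 j hj).1
      exact ⟨fun h => (e.subset ⟨h, hzk⟩).1, fun h => (e.symm.subset ⟨h, hzk⟩).1⟩
    · intro k' hk'
      rcases Finset.mem_insert.1 hk' with rfl | hk'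
      · exact (g1 j hj).2
      · have e := (g1 j hj).1
        have e' : R' j ∩ W k' = R j ∩ W k' := by
          ext z
          exact ⟨fun h => ⟨(e.subset ⟨h.1, fun hz => hout z hz k' hk' h.2⟩).1, h.2⟩,
            fun h => ⟨(e.symm.subset ⟨h.1, fun hz => hout z hz k' hk' h.2⟩).1, h.2⟩⟩
        rw [e']; exact (h1 j hj).2 k' hk'

theorem exists_edge_of_cell (Q : RCx E3) {x : E3} {j : Q.ι} (hj : Q.dim j = 0)
    (hx : Q.cell j = {x}) : ∀ n m, Q.dim m = n + 1 → x ∈ Q.cell m →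
      ∃ e, Q.dim e = 1 ∧ x ∈ Q.cell e := by
  intro n
  induction n using Nat.strong_induction_on with
  | _ n ih =>
    intro m hm hxm
    rcases n with _ | n
    · exact ⟨m, hm, hxm⟩
    have hxb : x ∈ Q.bd m := Q.subset_bd_of_dim_lt (j := j) (hx ▸ singleton_subset_iff.2 hxm)
      (by omega) (hx ▸ mem_singleton x)
    obtain ⟨φ⟩ := (hm ▸ Q.ball m : ConBall (n + 1 + 1) (Q.cell m) (Q.bd m)).conSphere
    have hr : 1 < Module.rank ℝ (Fin (n + 1 + 1) → ℝ) := by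
      rw [rank_fun', Fintype.card_fin]
      exact_mod_cast (show 1 < n + 1 + 1 by omega)
    have hpc : IsPreconnected (Q.bd m) := by
      rw [← φ.symm.image_eq]
      exact (isPreconnected_sphere hr 0 1).image _ φ.symm.cont
    have hnt : (Q.bd m).Nontrivial := by
      have h1 : (fun _ => 1 : Fin (n + 1 + 1) → ℝ) ∈ sphere (0 : Fin (n + 1 + 1) → ℝ) 1 := by
        rw [mem_sphere_zero_iff_norm, pi_norm_const, norm_one]
      have h2 : (fun _ => -1 : Fin (n + 1 + 1) → ℝ) ∈ sphere (0 : Fin (n + 1 + 1) → ℝ) 1 := by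
        rw [mem_sphere_zero_iff_norm, pi_norm_const, norm_neg, norm_one]
      refine ⟨_, φ.mapsTo_inv h1, _, φ.mapsTo_inv h2, fun e => ?_⟩
      have := congrFun (φ.symm.injOn h1 h2 e) 0
      norm_num at this
    have hacc := accPt_iff_frequently.1 (hpc.preperfect_of_nontrivial hnt x hxb)
    obtain ⟨y, ⟨hyx, hyb⟩, hy⟩ :=
      (hacc.and_eventually (Q.eventually_star (Q.cell_subset_carrier m hxm))).exists
    obtain ⟨m', h1, h2, h3⟩ := Q.bdry m y hyb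
    have hx' := hy m' h1.1
    have h4 : Q.dim m' ≠ 0 := fun h0 => by
      obtain ⟨a, ha⟩ := Q.exists_vertex h0
      have := h1.1
      rw [ha] at this hx'
      exact hyx (this.trans hx'.symm)
    exact ih (Q.dim m' - 1) (by omega) m' (by omega) hx'

/-- in a complex with open carrier every vertex lies on an edge -/
theorem exists_edge_at (Q : RCx E3) (hQ : IsOpen Q.carrier) {x : E3} {j : Q.ι}
    (hj : Q.dim j = 0) (hx : Q.cell j = {x}) : ∃ e, Q.dim e = 1 ∧ x ∈ Q.cell e := by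
  have hxc : x ∈ Q.carrier := Q.cell_subset_carrier j (hx ▸ mem_singleton x)
  have h1 : ∀ᶠ y in 𝓝[≠] x, y ∈ Q.carrier ∧ ∀ i, y ∈ Q.cell i → x ∈ Q.cell i :=
    mem_nhdsWithin_of_mem_nhds ((show ∀ᶠ y in 𝓝 x, y ∈ Q.carrier from hQ.mem_nhds hxc).and
      (Q.eventually_star hxc))
  obtain ⟨y, ⟨hy1, hy2⟩, hyx⟩ := (h1.and self_mem_nhdsWithin).exists
  obtain ⟨m, hm⟩ := Q.mem_carrier.1 hy1
  have hx' := hy2 m hm
  have h4 : Q.dim m ≠ 0 := fun h0 => by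
    obtain ⟨a, ha⟩ := Q.exists_vertex h0
    rw [ha] at hm hx'
    exact hyx (hm.trans hx'.symm)
  exact exists_edge_of_cell Q hj hx (Q.dim m - 1) m (by omega) hx'

/-- an edge at a vertex is a segment starting at the vertex -/
theorem exists_other_end {Q : RCx E3} (hQ : Q.Cvx) {x : E3} {v e : Q.ι} (hv : Q.dim v = 0)
    (hx : Q.cell v = {x}) (he : Q.dim e = 1) (hxe : x ∈ Q.cell e) :
    ∃ (y : E3) (v' : Q.ι), x ≠ y ∧ Q.cell e = segment ℝ x y ∧ Q.bd e = {x, y} ∧ Q.dim v' = 0 ∧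
      Q.cell v' = {y} := by
  obtain ⟨p, q, j₁, j₂, hpq, hs, hb, h1, h2, h3, h4, -⟩ := hQ.exists_segment he
  have hxb : x ∈ Q.bd e := Q.subset_bd_of_dim_lt (j := v) (hx ▸ singleton_subset_iff.2 hxe)
    (by omega) (hx ▸ mem_singleton x)
  rw [hb] at hxb
  rcases hxb with rfl | rfl
  · exact ⟨q, j₂, hpq, hs, hb, h2, h4⟩
  · exact ⟨p, j₁, hpq.symm, by rw [hs, segment_symm], by rw [hb, pair_comm], h1, h3⟩

/-- an edge meets a cell that does not contain it only in its ends -/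
theorem mem_bd_of_not_subset {Q : RCx E3} {e i : Q.ι} (h : ¬ Q.cell e ⊆ Q.cell i) {z : E3}
    (hz : z ∈ Q.cell e) (hzi : z ∈ Q.cell i) : z ∈ Q.bd e :=
  by_contra fun hb => h (Q.cell_subset_of_mem ⟨hz, hb⟩ hzi)

end P073.STR
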