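import Vale.Agent.P073Z.STR.Geo2
import Vale.Agent.P073Z.STR.Seq

/-!
# Straightening: the state after the surgery at the vertices
-/

open Set Metric Topology Filter MeasureTheory
open scoped ENNReal NNReal

namespace P073.STR

/-- the flatness constant -/
noncomputable def kap (M : ℝ) : ℝ := (max M 1)⁻¹ ^ 4 / 10 ^ 6

theorem kap_pos (M : ℝ) : 0 < kap M := by
  have : 0 < max M 1 := lt_max_of_lt_right one_pos
  unfold kap; positivity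

theorem kap_eq {M : ℝ} (h : 1 ≤ M) (s : ℝ) : kap M * s = s * M⁻¹ ^ 4 / 10 ^ 6 := by
  unfold kap; rw [max_eq_left h]; ring

/-- the one-cell `e` is the segment from `x` to `y` -/
def Wire (Q : RCx E3) (e : Q.ι) (x y : E3) : Prop :=
  Q.dim e = 1 ∧ x ≠ y ∧ Q.cell e = segment ℝ x y ∧ Q.bd e = {x, y}

theorem Wire.symm {Q : RCx E3} {e : Q.ι} {x y : E3} (h : Wire Q e x y) : Wire Q e y x :=
  ⟨h.1, h.2.1.symm, by rw [h.2.2.1, segment_symm], by rw [h.2.2.2, pair_comm]⟩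

theorem Wire.unique {Q : RCx E3} {e : Q.ι} {x y x' y' : E3} (h : Wire Q e x y)
    (h' : Wire Q e x' y') : (x' = x ∧ y' = y) ∨ (x' = y ∧ y' = x) :=
  pair_eq_pair_iff.1 (h'.2.2.2.symm.trans h.2.2.2)

theorem Wire.left_mem {Q : RCx E3} {e : Q.ι} {x y : E3} (h : Wire Q e x y) : x ∈ Q.cell e := by
  rw [h.2.2.1]; exact left_mem_segment _ _ _

theorem Wire.vertex {Q : RCx E3} {e : Q.ι} {x y : E3} (h : Wire Q e x y) :
    ∃ v, Q.dim v = 0 ∧ Q.cell v = {x} :=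
  Q.vertex_of_mem_bd h.1 (by rw [h.2.2.2]; exact Or.inl rfl)

theorem exists_wire {Q : RCx E3} (hQ : Q.Cvx) {e : Q.ι} (he : Q.dim e = 1) :
    ∃ x y, Wire Q e x y := by
  obtain ⟨p, q, -, -, h1, h2, h3, -⟩ := hQ.exists_segment he
  exact ⟨p, q, he, h1, h2, h3⟩

theorem exists_wire_at {Q : RCx E3} (hQ : Q.Cvx) {x : E3} {v e : Q.ι} (hv : Q.dim v = 0)
    (hx : Q.cell v = {x}) (he : Q.dim e = 1) (hxe : x ∈ Q.cell e) : ∃ y, Wire Q e x y := by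
  obtain ⟨y, -, h1, h2, h3, -⟩ := exists_other_end hQ hv hx he hxe
  exact ⟨y, he, h1, h2, h3⟩

section good

variable {Q : RCx E3} {f : E3 → E3} {β : ℝ} (γ : Good Q f kap β)

theorem w_pos {i : Q.ι} (hi : i ∈ γ.G) : 0 < (γ.M i)⁻¹ :=
  inv_pos.2 (one_pos.trans_le (γ.pos i hi).2.1)

theorem w_le {i : Q.ι} (hi : i ∈ γ.G) : (γ.M i)⁻¹ ≤ 1 := inv_le_one_of_one_le₀ (γ.pos i hi).2.1

theorem s_le {i : Q.ι} (hi : i ∈ γ.G) : γ.s i ≤ β :=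
  (le_mul_of_one_le_left (γ.pos i hi).1.le (γ.pos i hi).2.1).trans (γ.pos i hi).2.2

/-- the length of the chord of a wire at a good vertex -/
theorem chord_len {v e : Q.ι} {x y : E3} (hv : v ∈ γ.G) (hx : Q.cell v = {x})
    (he : Wire Q e x y) : γ.s v ≤ dist (f y) (f x) ∧ (γ.M v)⁻¹ * dist (f y) (f x) ≤ γ.s v ∧
      dist (f y) (f x) ≤ β := by
  obtain ⟨h1, h2, -⟩ := γ.wire v hv e x y he.1 hx he.2.2.1
  rw [dist_eq_norm]
  exact ⟨h1, (inv_mul_le_iff₀ (one_pos.trans_le (γ.pos v hv).2.1)).2 h2, h2.trans (γ.pos v hv).2.2⟩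

/-- the affine map agrees with `f` at the vertices of a good cell -/
theorem A_vertex {i v : Q.ι} {x : E3} (hi : i ∈ γ.G) (hv : Q.dim v = 0) (hx : Q.cell v = {x})
    (hxi : x ∈ Q.cell i) : v ∈ γ.G ∧ γ.s v = γ.s i ∧ γ.M v = γ.M i ∧ γ.A i x = f x := by
  obtain ⟨h1, h2, h3, h4⟩ := γ.face i hi v (hx ▸ singleton_subset_iff.2 hxi)
  have hxv : x ∈ Q.cell v := hx ▸ mem_singleton x
  exact ⟨h1, h2, h3, (h4 hxv).symm.trans (γ.vert v h1 hv hxv)⟩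

theorem A_edge {e : Q.ι} {x y : E3} (he : e ∈ γ.G) (h : Wire Q e x y) :
    γ.A e '' Q.cell e = segment ℝ (f x) (f y) := by
  obtain ⟨v, hv, hx⟩ := h.vertex
  obtain ⟨v', hv', hy⟩ := h.symm.vertex
  rw [h.2.2.1, image_segment, (A_vertex γ he hv hx h.left_mem).2.2.2,
    (A_vertex γ he hv' hy h.symm.left_mem).2.2.2]

/-- the state after the surgery at the good vertices -/
structure Stage1 (R₀ R : Q.ι → Set E3) : Prop where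
  real : Realiz Q 2 R
  moved : ∀ i, Q.dim i ≤ 2 → Moved R₀ R (⋃ j ∈ γ.G, γ.A j '' Q.cell j) β i
  vert : ∀ v ∈ γ.G, ∀ x, Q.dim v = 0 → Q.cell v = {x} → R v = {f x}
  ends : ∀ v ∈ γ.G, ∀ e x y, Q.dim v = 0 → Q.cell v = {x} → Wire Q e x y →
    EndOK (R e) (f x) (f y) (γ.s v) (γ.M v)⁻¹
  far : ∀ i ∈ γ.G, ∀ e, Q.dim e = 1 → Disjoint (Q.cell e) (Q.cell i) →
    ∀ z ∈ R e, ∀ y ∈ γ.A i '' Q.cell i, γ.s i * (γ.M i)⁻¹ / 2 ≤ dist z y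
  len : ∀ e x y, Wire Q e x y → μH[1] (R e) ≤ μH[1] (R₀ e) + 2 * edist (f x) (f y)

end good

/-- the surgery along the good edges -/
def EDGE : Prop := ∀ (Q : RCx E3) {f : E3 → E3} {β : ℝ} (γ : Good Q f kap β)
  (R₀ R₁ : Q.ι → Set E3), 0 < β → IsOpen Q.carrier → Q.Cvx → Stage1 γ R₀ R₁ →
  (∀ i ∈ γ.G, {j | Q.dim j ≤ 2 ∧ (R₀ j ∩ thickening (30 * β) (γ.A i '' Q.cell i)).Nonempty}.Finite) →
  ∃ R : Q.ι → Set E3, Realiz Q 2 R ∧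
    (∀ i ∈ γ.G, Q.dim i ≤ 1 → R i = γ.A i '' Q.cell i) ∧
    (∀ i ∈ γ.G, ∀ e, Q.dim e = 1 → R e ∩ γ.A i '' Q.cell i ⊆ γ.A i '' (Q.cell e ∩ Q.cell i)) ∧
    (∀ e x y, Q.dim e = 1 → Q.cell e = segment ℝ x y →
      μH[1] (R e) ≤ 2 * μH[1] (R₀ e) + 10 * segVar f x y) ∧
    ∀ i, Q.dim i ≤ 2 → Moved R₀ R (⋃ j ∈ γ.G, γ.A j '' Q.cell j) (30 * β) i

end P073.STR
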