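import Vale.Agent.P073Z.Sk2

/-!
# Straightening: definitions and small statements
-/

open Set Metric Topology Filter MeasureTheory
open scoped ENNReal NNReal

namespace P073.STR

/-- the sign of a side -/
def bsg (b : Bool) : ℝ := if b then 1 else -1

/-- the gauge of the box with half widths `h` -/
noncomputable def boxG (h : Fin 3 × Bool → ℝ) (u : E3) : ℝ :=
  Finset.univ.sup' Finset.univ_nonempty fun k : Fin 3 × Bool => bsg k.2 * u k.1 / h k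

/-- the open lens around the chord from `c` to `c + d` -/
def lens (c d : E3) (lam : E3 →L[ℝ] ℝ) (a : ℝ) : Set E3 :=
  {z | ‖(z - c) - lam (z - c) • d‖ < a * min (lam (z - c)) (1 - lam (z - c))}

/-- levels met as few times as possible -/
def LEV : Prop := ∀ {ι : Type} (s : Finset ι) (φ : ι → ℝ → ℝ) {a b κ : ℝ}, 0 ≤ κ →
  (∀ e ∈ s, ContinuousOn (φ e) (Icc 0 1) ∧
    eVariationOn (fun τ => φ e τ - AffineMap.lineMap (φ e 0) (φ e 1) τ) (Icc 0 1) ≤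
      ENNReal.ofReal κ) → 6 * (s.card : ℝ) * κ < b - a →
  ∃ A : Set ℝ, MeasurableSet A ∧ volume A ≠ 0 ∧ A ⊆ Icc a b ∧ ∀ t ∈ A, ∀ e ∈ s,
    κ < |t - φ e 0| ∧ κ < |t - φ e 1| ∧ {τ ∈ Icc (0:ℝ) 1 | φ e τ = t}.encard ≤ 1 ∧
    (t ∉ uIcc (φ e 0) (φ e 1) → ∀ τ ∈ Icc (0:ℝ) 1, φ e τ ≠ t)

/-- a PL arc leaves a box exactly once -/
def CROSS : Prop := ∀ {x y c : E3} {ψ : E3 → E3} {h : Fin 3 × Bool → ℝ}, (∀ k, 0 < h k) →
  PLOn ψ (segment ℝ x y) → InjOn ψ (segment ℝ x y) →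
  boxG h (ψ x - c) < 1 → 1 < boxG h (ψ y - c) →
  (∀ k : Fin 3 × Bool, {p ∈ segment ℝ x y | ψ p k.1 = c k.1 + bsg k.2 * h k}.encard ≤ 1 ∧
    (bsg k.2 * (ψ y k.1 - c k.1) ≤ h k →
      ∀ p ∈ segment ℝ x y, ψ p k.1 ≠ c k.1 + bsg k.2 * h k)) →
  ∃ δ > (0:ℝ), ∀ t ∈ Ioo (1 - δ) (1 + δ),
    {z ∈ ψ '' segment ℝ x y | boxG h (z - c) = t}.ncard = 1

/-- a shear inside the lens that flattens a polyline with four pieces -/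
def TENT : Prop := ∀ {c d q₀ q₁ : E3} {lam : E3 →L[ℝ] ℝ} {s k σ : ℝ}, lam d = 1 →
  (∀ u, ‖d‖ * |lam u| ≤ ‖u‖) → 0 < s → s ≤ ‖d‖ → 0 < k → k ≤ 1 → 0 < σ → σ ≤ 1 / 4 →
  lam (q₀ - c) = σ → lam (q₁ - c) = 1 - σ →
  ‖(q₀ - c) - lam (q₀ - c) • d‖ ≤ k / 100 * s * σ →
  ‖(q₁ - c) - lam (q₁ - c) • d‖ ≤ k / 100 * s * σ →
  ∃ Ψ : ConHomeo (univ : Set E3) (univ : Set E3),
    (∀ z, z ∉ lens c d lam (k * s) → Ψ.toFun z = z) ∧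
    Ψ.toFun '' (segment ℝ c q₀ ∪ segment ℝ q₀ (c + (1 / 2 : ℝ) • d) ∪
      segment ℝ (c + (1 / 2 : ℝ) • d) q₁ ∪ segment ℝ q₁ (c + d)) = segment ℝ c (c + d)

end P073.STR
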