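import Vale.Agent.P073Z.STR.Vert0

/-!
# Straightening: the surgery at the good vertices
-/

open Set Metric Topology Filter MeasureTheory AffineMap
open scoped ENNReal NNReal

namespace P073.STR

variable {Q : RCx E3} {f : E3 → E3} {β : ℝ} (γ : Good Q f kap β)

/-- what the surgery at the vertex with image `c` does inside the ball -/
def VertP (R₀ : Q.ι → Set E3) (c : E3) (r : ℝ) (v j : Q.ι) (X : Set E3) : Prop :=
  (j = v → X = {c}) ∧ (Q.dim j = 1 → Q.cell v ⊆ Q.cell j → ∃ p ∈ R₀ j, r / 2 ≤ dist p c ∧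
    dist p c ≤ 4 * r ∧ segment ℝ c p ⊆ X ∧
    ∀ z ∈ X, z ∈ segment ℝ c p ∨ (z ∈ R₀ j ∧ r / 2 ≤ dist z c))

theorem vert_step (hCS : CS) (hO : IsOpen Q.carrier) {R₀ R : Q.ι → Set E3} {v : Q.ι} {c : E3}
    {r : ℝ} (hr : 0 < r) (hv0 : Q.dim v = 0) {h : Fin 3 × Bool → ℝ}
    (hh : ∀ k, r ≤ h k ∧ h k ≤ 2 * r) (hR : Realiz Q 2 R)
    (hloc : ∀ j, Q.dim j ≤ 1 → R j ∩ ball c (5 * r) = R₀ j ∩ ball c (5 * r))
    (hfin : {i | Q.dim i ≤ 2 ∧ (R i ∩ ball c (5 * r)).Nonempty}.Finite)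
    (hfar : ∀ j, Q.dim j ≤ 1 → ¬ Q.cell v ⊆ Q.cell j → Disjoint (R₀ j) (ball c (5 * r)))
    (hv : ∃ y ∈ R₀ v, dist y c ≤ r / 2)
    (hcr : ∀ e, Q.dim e = 1 → Q.cell v ⊆ Q.cell e → ∃ δ > (0:ℝ), ∀ u ∈ Ioo (1 - δ) (1 + δ),
      {z ∈ R₀ e | boxG h (z - c) = u}.ncard = 1) :
    ∃ R' : Q.ι → Set E3, Realiz Q 2 R' ∧
      (∀ i, Q.dim i ≤ 2 → R' i ⊆ R i ∪ ball c (5 * r) ∧
        (Disjoint (R i) (ball c (5 * r)) → R' i = R i)) ∧
      ∀ j, Q.dim j ≤ 1 → R' j \ ball c (5 * r) = R j \ ball c (5 * r) ∧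
        VertP R₀ c r v j (R' j ∩ ball c (5 * r)) := by
  have hpos : ∀ k, 0 < h k := fun k => hr.trans_le (hh k).1
  have hup : ∀ z, dist z c ≤ 2 * r * boxG h (z - c) := fun z => by
    rw [dist_eq_norm]; exact le_boxG hpos (fun k => (hh k).2) _
  have hlo : ∀ z, r * boxG h (z - c) ≤ dist z c := fun z => by
    rw [dist_eq_norm]; exact boxG_le hr (fun k => (hh k).1) _
  have hin : ∀ z, boxG h (z - c) ≤ 2 → dist z c ≤ 4 * r := fun z hz => by
    have := mul_le_mul_of_nonneg_left hz (mul_pos two_pos hr).le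
    linarith [hup z]
  have hin' : ∀ z, boxG h (z - c) ≤ 2 → z ∈ ball c (5 * r) := fun z hz => by
    rw [mem_ball]; linarith [hin z hz]
  -- a common window of levels
  obtain ⟨δ, hδ, hδ2, hwin⟩ : ∃ δ > (0:ℝ), δ ≤ 1 / 2 ∧ ∀ e, Q.dim e = 1 → Q.cell v ⊆ Q.cell e →
      ∀ u ∈ Ioo (1 - δ) (1 + δ), {z ∈ R₀ e | boxG h (z - c) = u}.ncard = 1 := by
    have hfin' : {e | Q.dim e = 1 ∧ Q.cell v ⊆ Q.cell e}.Finite :=
      (Q.finite_cofaces v).subset fun e he => he.2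
    have h1 : ∀ᶠ δ in 𝓝[>] (0:ℝ), ∀ e ∈ {e | Q.dim e = 1 ∧ Q.cell v ⊆ Q.cell e},
        ∀ u ∈ Ioo (1 - δ) (1 + δ), {z ∈ R₀ e | boxG h (z - c) = u}.ncard = 1 := by
      rw [eventually_all_finite hfin']
      intro e he
      obtain ⟨δ, hδ, H⟩ := hcr e he.1 he.2
      filter_upwards [Ioc_mem_nhdsGT hδ] with δ' hδ' u hu
      exact H u ⟨by linarith [hu.1, hδ'.2], by linarith [hu.2, hδ'.2]⟩
    obtain ⟨δ, h2, h3⟩ := (h1.and (Ioc_mem_nhdsGT (show (0:ℝ) < 1 / 2 by norm_num))).exists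
    exact ⟨δ, h3.1, h3.2, fun e a b => h2 e ⟨a, b⟩⟩
  have hout : ∀ i, Disjoint (R i) (ball c (5 * r)) → ∀ y ∈ R i, 1 + δ ≤ boxG h (y - c) :=
    fun i hi y hy => by_contra fun hcon =>
      disjoint_left.1 hi hy (hin' y (by linarith [not_le.1 hcon]))
  have hfar' : ∀ j, Q.dim j ≤ 1 → ¬ Q.cell v ⊆ Q.cell j → Disjoint (R j) (ball c (5 * r)) :=
    fun j hj hn => by
      rw [disjoint_iff_inter_eq_empty, hloc j hj, ← disjoint_iff_inter_eq_empty]
      exact hfar j hj hn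
  have hlev : ∀ e, Q.dim e ≤ 1 → ∀ u, u ≤ 2 →
      {z ∈ R e | boxG h (z - c) = u} = {z ∈ R₀ e | boxG h (z - c) = u} := by
    intro e he u hu
    ext z
    exact ⟨fun hz => ⟨((hloc e he).subset ⟨hz.1, hin' z (hz.2 ▸ hu)⟩).1, hz.2⟩,
      fun hz => ⟨((hloc e he).symm.subset ⟨hz.1, hin' z (hz.2 ▸ hu)⟩).1, hz.2⟩⟩
  obtain ⟨y₀, hy₀, hy₀c⟩ := hv
  have hy₀B : y₀ ∈ ball c (5 * r) := by rw [mem_ball]; linarith
  have hy₀R : y₀ ∈ R v := ((hloc v (by omega)).symm.subset ⟨hy₀, hy₀B⟩).1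
  obtain ⟨t, ht, R', hR', g1, g2, g3⟩ := hCS Q R v (g := boxG h) (c := c) (t₁ := 1 - δ)
    (t₂ := 1 + δ) hO hR (by omega) (plOn_boxG h) (fun x t ht => boxG_smul h ht x)
    (fun x hx => boxG_pos hpos hx) (by linarith) (by linarith)
    (hfin.subset fun i ⟨hi, y, hy, hy'⟩ => ⟨hi, y, hy, hin' y (by linarith)⟩)
    (fun j hj hn => hout j (hfar' j hj hn))
    ⟨y₀, hy₀R, by
      by_contra hcon
      have := mul_lt_mul_of_pos_left (not_le.1 hcon) hr
      have := mul_le_mul_of_nonneg_left hδ2 hr.le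
      linarith [hlo y₀]⟩
    (fun e he hve u hu => by
      rw [hlev e he.le u (by linarith [hu.2]), hv0]
      exact hwin e he hve u hu)
  have ht2 : t ≤ 2 := by linarith [ht.2]
  have hsub : ∀ i, Q.dim i ≤ 2 → R' i ⊆ R i ∪ ball c (5 * r) := fun i hi z hz =>
    ((g1 i hi).1 hz).imp id fun h => hin' z (le_trans h ht2)
  refine ⟨R', hR', fun i hi => ⟨hsub i hi, fun hd => (g1 i hi).2 (hout i hd)⟩, fun j hj => ?_⟩
  by_cases hvj : Q.cell v ⊆ Q.cell j
  swap
  · rw [(g1 j (by omega)).2 (hout j (hfar' j hj hvj))]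
    exact ⟨rfl, fun e => absurd (e ▸ Subset.rfl) hvj, fun _ h => absurd h hvj⟩
  rcases Nat.le_one_iff_eq_zero_or_eq_one.1 hj with hj0 | hj1
  · have e : v = j := Q.eq_of_subset_of_dim_le hvj (by omega)
    subst e
    obtain ⟨⟨a, ha⟩, -⟩ := ConBall.zero_eq (hv0 ▸ hR.ball v (by omega))
    have hc : c ∈ ball c (5 * r) := mem_ball_self (by linarith)
    rw [g2 hv0]
    refine ⟨?_, fun _ => inter_eq_left.2 (singleton_subset_iff.2 hc), fun h => by omega⟩
    rw [ha] at hy₀R ⊢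
    rw [sdiff_eq_empty.2 (singleton_subset_iff.2 hc),
      sdiff_eq_empty.2 (singleton_subset_iff.2 (hy₀R ▸ hy₀B))]
  · obtain ⟨p, hp⟩ := ncard_eq_one.1 (hwin j hj1 hvj t ht)
    have hp' : p ∈ R₀ j ∧ boxG h (p - c) = t := hp.symm.subset (mem_singleton p)
    have hform := g3 j hj1 hvj
    rw [hlev j hj t ht2, hp, coneSetAt_singleton] at hform
    have hhalf : ∀ z, t ≤ boxG h (z - c) → r / 2 ≤ dist z c := by
      intro z hz
      by_contra hcon
      -- the gauge is at most the distance over `r`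
      have h1 := hlo z
      have h2 := mul_le_mul_of_nonneg_left (show 1 / 2 ≤ boxG h (z - c) by linarith [ht.1]) hr.le
      linarith [not_le.1 hcon]
    have hseg : segment ℝ c p ⊆ ball c (5 * r) :=
      (convex_ball c _).segment_subset (mem_ball_self (by linarith)) (hin' p (hp'.2 ▸ ht2))
    refine ⟨?_, fun e => by rw [e] at hj1; omega, fun _ _ => ⟨p, hp'.1, hhalf p hp'.2.ge,
      hin p (hp'.2 ▸ ht2), fun z hz => ⟨by rw [hform]; exact Or.inr hz, hseg hz⟩, ?_⟩⟩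
    · ext z
      refine ⟨fun hz => ⟨(hsub j (by omega) hz.1).resolve_right hz.2, hz.2⟩, fun hz => ⟨?_, hz.2⟩⟩
      rw [hform]
      exact Or.inl ⟨hz.1, by_contra fun hcon => hz.2 (hin' z (by linarith [not_le.1 hcon]))⟩
    · rintro z ⟨hz, hzB⟩
      rw [hform] at hz
      rcases hz with hz | hz
      · exact Or.inr ⟨((hloc j hj).subset ⟨hz.1, hzB⟩).1, hhalf z hz.2⟩
      · exact Or.inl hz

theorem stage1 (hCS : CS) (hC : CROSS) (hβ0 : 0 < β) (hO : IsOpen Q.carrier) (hQ : Q.Cvx)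
    (t : Q.ι × Fin 3 × Bool → ℝ) {Y : Set E3} (ψ : ConHomeo (Q.skel 2) Y)
    (ht : ∀ v ∈ γ.G, ∀ x, Q.dim v = 0 → Q.cell v = {x} → ∀ k, LevOK γ v x k (t (v, k)) ∧
      ∀ e y, Wire Q e x y →
        cnt ψ.toFun x y {z | z k.1 = t (v, k)} ≤ cnt f x y {z | z k.1 = t (v, k)})
    (hψ : ∀ i ∈ γ.G, ∀ x ∈ Q.skel 2, dist (ψ.toFun x) (f x) ≤ kap (γ.M i) * γ.s i)
    (hfin : ∀ i ∈ γ.G, {j | Q.dim j ≤ 2 ∧ (ψ.toFun '' Q.cell j ∩
      thickening (30 * β) (γ.A i '' Q.cell i)).Nonempty}.Finite) :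
    ∃ R, Stage1 γ (fun j => ψ.toFun '' Q.cell j) R := by
  classical
  have hψ' : ∀ i ∈ γ.G, ∀ x ∈ Q.skel 2,
      dist (ψ.toFun x) (f x) ≤ γ.s i * (γ.M i)⁻¹ ^ 4 / 10 ^ 6 := fun i hi x hx => by
    rw [← kap_eq (γ.pos i hi).2.1]; exact hψ i hi x hx
  have hex : ∀ v, ∃ x, Q.dim v = 0 → Q.cell v = {x} := fun v => by
    by_cases hv : Q.dim v = 0
    · obtain ⟨x, hx⟩ := Q.exists_vertex hv
      exact ⟨x, fun _ => hx⟩
    · exact ⟨0, fun h => absurd h hv⟩
  choose xv hxv using hex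
  let V := γ.G.filter fun v => Q.dim v = 0
  have hV : ∀ v, v ∈ V ↔ v ∈ γ.G ∧ Q.dim v = 0 := fun v => Finset.mem_filter
  let r : Q.ι → ℝ := fun v => γ.s v * (γ.M v)⁻¹ / 20
  have hr : ∀ v, r v = γ.s v * (γ.M v)⁻¹ / 20 := fun v => rfl
  let W : Q.ι → Set E3 := fun v => ball (f (xv v)) (5 * r v)
  let R₀ : Q.ι → Set E3 := fun j => ψ.toFun '' Q.cell j
  have hcA : ∀ v ∈ V, f (xv v) ∈ γ.A v '' Q.cell v := fun v hv => by
    rw [hV] at hv
    have : xv v ∈ Q.cell v := hxv v hv.2 ▸ mem_singleton _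
    exact ⟨_, this, γ.vert v hv.1 hv.2 this⟩
  have hxne : ∀ v j, Q.dim v = 0 → Q.dim j = 0 → j ≠ v → xv j ≠ xv v := fun v j hv hj hne e =>
    hne (Q.cell_injective (by rw [hxv v hv, hxv j hj, e]))
  have hW : ∀ k ∈ V, ∀ k' ∈ V, k ≠ k' → Disjoint (W k) (W k') := by
    intro k hk k' hk' hne
    have h1 := vertex_far γ hO hQ ((hV k).1 hk).1 ((hV k).1 hk).2 (hxv k ((hV k).1 hk).2)
      ((hV k').1 hk').2 (hxv k' ((hV k').1 hk').2)
      (hxne k k' ((hV k).1 hk).2 ((hV k').1 hk').2 hne.symm)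
    have h2 := vertex_far γ hO hQ ((hV k').1 hk').1 ((hV k').1 hk').2 (hxv k' ((hV k').1 hk').2)
      ((hV k).1 hk).2 (hxv k ((hV k).1 hk).2)
      (hxne k' k ((hV k').1 hk').2 ((hV k).1 hk).2 hne)
    refine ball_disjoint_ball ?_
    rw [dist_comm] at h1
    rw [hr, hr]
    linarith [dist_nonneg (x := f (xv k)) (y := f (xv k'))]
  have hfar0 : ∀ i ∈ γ.G, ∀ e, Q.dim e = 1 → Disjoint (Q.cell e) (Q.cell i) → ∀ z ∈ R₀ e,
      ∀ y ∈ γ.A i '' Q.cell i, γ.s i * (γ.M i)⁻¹ / 2 ≤ dist z y := by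
    rintro i hi e he hd _ ⟨x, hx, rfl⟩ y hy
    have h1 := γ.far i hi e he hd x hx y hy
    rw [div_eq_mul_inv] at h1
    have h2 := hψ' i hi x (Q.cell_subset_skel (by omega) hx)
    obtain ⟨e1, e2, -, -⟩ := eta_le γ hi
    linarith [dist_triangle_left (f x) y (ψ.toFun x)]
  have hfar : ∀ v ∈ V, ∀ j, Q.dim j ≤ 1 → ¬ Q.cell v ⊆ Q.cell j → Disjoint (R₀ j) (W v) := by
    intro v hv j hj hn
    have hv' := (hV v).1 hv
    obtain ⟨e1, e2, -, -⟩ := eta_le γ hv'.1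
    rw [disjoint_left]
    intro z hz hzW
    have hzW' : dist z (f (xv v)) < 5 * r v := hzW
    rw [hr] at hzW'
    rcases Nat.le_one_iff_eq_zero_or_eq_one.1 hj with hj0 | hj1
    · have h1 := vertex_far γ hO hQ hv'.1 hv'.2 (hxv v hv'.2) hj0 (hxv j hj0)
        (hxne v j hv'.2 hj0 fun e => hn (e ▸ Subset.rfl))
      obtain ⟨x, hx, rfl⟩ := hz
      have h2 := hψ' v hv'.1 x (Q.cell_subset_skel (by omega) hx)
      rw [hxv j hj0] at hx
      rw [mem_singleton_iff.1 hx] at h2 hzW'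
      linarith [dist_triangle_left (f (xv j)) (f (xv v)) (ψ.toFun (xv j))]
    · have h1 := hfar0 v hv'.1 j hj1 (by
        rw [hxv v hv'.2] at hn ⊢
        exact disjoint_singleton_right.2 fun h => hn (singleton_subset_iff.2 h)) z hz _ (hcA v hv)
      linarith
  have hWA : ∀ v ∈ V, ∀ d, β ≤ d → W v ⊆ thickening d (γ.A v '' Q.cell v) := by
    intro v hv d hd z hz
    obtain ⟨e1, e2, e3, e4⟩ := eta_le γ ((hV v).1 hv).1
    have hz' : dist z (f (xv v)) < 5 * r v := hz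
    rw [hr] at hz'
    exact mem_thickening_iff.2 ⟨_, hcA v hv, by linarith⟩
  obtain ⟨R, hR, h2, h1⟩ := seq V W hW (R₀ := R₀) (real Q 2 ψ)
    (fun v j X => VertP R₀ (f (xv v)) (r v) v j X)
    (fun v hv => (hfin v ((hV v).1 hv).1).subset fun j hj =>
      ⟨hj.1, hj.2.mono (inter_subset_inter_right _ (hWA v hv _ (by linarith)))⟩)
    (fun v hv R hR hloc _ hf => by
      have hv' := (hV v).1 hv
      obtain ⟨e1, e2, -, -⟩ := eta_le γ hv'.1
      have hxm : xv v ∈ Q.cell v := hxv v hv'.2 ▸ mem_singleton _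
      have ht' := ht v hv'.1 (xv v) hv'.2 (hxv v hv'.2)
      refine vert_step hCS hO (by rw [hr]; linarith) hv'.2
        (h := fun k => bsg k.2 * (t (v, k) - f (xv v) k.1))
        (fun k => ⟨(ht' k).1.1, (ht' k).1.2.1⟩) hR hloc hf (hfar v hv)
        ⟨_, ⟨_, hxm, rfl⟩, ?_⟩ fun e he hve => ?_
      · have := hψ' v hv'.1 _ (Q.cell_subset_skel (k := 2) (by omega) hxm)
        rw [hr]; linarith
      · obtain ⟨y, hy⟩ := exists_wire_at hQ hv'.2 (hxv v hv'.2) he (hve hxm)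
        exact cross_at γ hC hv'.1 (hxv v hv'.2) hy (fun k => (ht' k).1) ψ
          (fun k => (ht' k).2 e y hy) (hψ' v hv'.1))
  -- the rays
  have hexp : ∀ k e, ∃ p, k ∈ V → Q.dim e = 1 → Q.cell k ⊆ Q.cell e → p ∈ R₀ e ∧
      r k / 2 ≤ dist p (f (xv k)) ∧ dist p (f (xv k)) ≤ 4 * r k ∧
      segment ℝ (f (xv k)) p ⊆ R e ∩ W k ∧ ∀ z ∈ R e ∩ W k, z ∈ segment ℝ (f (xv k)) p ∨
        (z ∈ R₀ e ∧ r k / 2 ≤ dist z (f (xv k))) := by
    intro k e
    by_cases h : k ∈ V ∧ Q.dim e = 1 ∧ Q.cell k ⊆ Q.cell e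
    · obtain ⟨p, hp⟩ := ((h1 e h.2.1.le).2 k h.1).2 h.2.1 h.2.2
      exact ⟨p, fun _ _ _ => hp⟩
    · exact ⟨0, fun a b c => absurd ⟨a, b, c⟩ h⟩
  choose p hp using hexp
  have hrpos : ∀ k ∈ V, 0 < r k := fun k hk => by
    obtain ⟨e1, e2, -, -⟩ := eta_le γ ((hV k).1 hk).1
    rw [hr]; linarith
  have hnotW : ∀ k ∈ V, ∀ z, z ∉ W k → r k / 2 ≤ dist z (f (xv k)) := fun k hk z hz => by
    have : 5 * r k ≤ dist z (f (xv k)) := not_lt.1 hz
    linarith [hrpos k hk]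
  have hpts : ∀ e, Q.dim e = 1 → ∀ z ∈ R e,
      (z ∈ R₀ e ∧ ∀ k ∈ V, r k / 2 ≤ dist z (f (xv k))) ∨
      ∃ k ∈ V, Q.cell k ⊆ Q.cell e ∧ z ∈ segment ℝ (f (xv k)) (p k e) := by
    intro e he z hz
    by_cases hzW : ∃ k ∈ V, z ∈ W k
    · obtain ⟨k, hk, hzk⟩ := hzW
      have hke : Q.cell k ⊆ Q.cell e := by
        by_contra hn
        have hd := hfar k hk e he.le hn
        rcases (h2 e (by omega)).1 z hz with h | ⟨k', hk', hz', hm⟩
        · exact disjoint_left.1 hd h hzk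
        · by_cases hkk : k' = k
          · exact not_disjoint_iff_nonempty_inter.2 (hkk ▸ hm) hd
          · exact disjoint_left.1 (hW k' hk' k hk hkk) hz' hzk
      rcases (hp k e hk he hke).2.2.2.2 z ⟨hz, hzk⟩ with h | h
      · exact Or.inr ⟨k, hk, hke, h⟩
      · refine Or.inl ⟨h.1, fun k' hk' => ?_⟩
        by_cases hkk : k' = k
        · rw [hkk]; exact h.2
        · exact hnotW k' hk' z fun hz' => disjoint_left.1 (hW k' hk' k hk hkk) hz' hzk
    · push Not at hzW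
      exact Or.inl ⟨((h1 e he.le).1 z hzW).1 hz, fun k hk => hnotW k hk z (hzW k hk)⟩
  have hray : ∀ k ∈ V, ∀ e, Q.dim e = 1 → Q.cell k ⊆ Q.cell e →
      ∀ z ∈ segment ℝ (f (xv k)) (p k e), dist z (f (xv k)) ≤ 4 * r k := fun k hk e he hke z hz =>
    (convex_closedBall _ _).segment_subset (mem_closedBall_self (by linarith [hrpos k hk]))
      (hp k e hk he hke).2.2.1 hz
  have hend : ∀ k ∈ V, ∀ e x y, Wire Q e x y → Q.cell k ⊆ Q.cell e → xv k = x ∨ xv k = y := by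
    intro k hk e x y he hke
    have hk' := (hV k).1 hk
    have := Q.subset_bd_of_dim_lt hke (by rw [he.1, hk'.2]; norm_num)
      (hxv k hk'.2 ▸ mem_singleton (xv k))
    rwa [he.2.2.2] at this
  refine ⟨R, hR, fun i hi => ⟨fun z hz => ?_, fun hd => ?_⟩, ?_, ?_, ?_, ?_⟩
  · rcases (h2 i hi).1 z hz with h | ⟨k, hk, hzk, y, hy, hyk⟩
    · exact self_subset_thickening hβ0 _ h
    · obtain ⟨e1, e2, e3, e4⟩ := eta_le γ ((hV k).1 hk).1
      have a1 : dist z (f (xv k)) < 5 * r k := hzk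
      have a2 : dist y (f (xv k)) < 5 * r k := hyk
      rw [hr] at a1 a2
      exact mem_thickening_iff.2 ⟨y, hy, by linarith [dist_triangle_right z y (f (xv k))]⟩
  · refine (h2 i hi).2 fun k hk => hd.mono_right ((hWA k hk β le_rfl).trans ?_)
    exact thickening_subset_of_subset _ (subset_biUnion_of_mem (u := fun j => γ.A j '' Q.cell j)
      (Finset.mem_coe.2 ((hV k).1 hk).1))
  · intro v hv x hv0 hx
    have e : xv v = x := singleton_injective ((hxv v hv0).symm.trans hx)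
    have h3 := ((h1 v (by omega)).2 v ((hV v).2 ⟨hv, hv0⟩)).1 rfl
    obtain ⟨⟨a, ha⟩, -⟩ := ConBall.zero_eq (hv0 ▸ hR.ball v (by omega))
    have h4 := (h3.symm.subset (mem_singleton _)).1
    rw [ha] at h4 ⊢
    rw [← e, mem_singleton_iff.1 h4]
  · intro v hv e x y hv0 hx he
    have ex : xv v = x := singleton_injective ((hxv v hv0).symm.trans hx)
    have hvV : v ∈ V := (hV v).2 ⟨hv, hv0⟩
    have hve : Q.cell v ⊆ Q.cell e := hx ▸ singleton_subset_iff.2 he.left_mem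
    obtain ⟨e1, e2, e3, e4⟩ := eta_le γ hv
    have hth : R₀ e ⊆ thickening (3 * (γ.s v * (γ.M v)⁻¹ ^ 4 / 10 ^ 6)) (segment ℝ (f x) (f y)) := by
      rintro _ ⟨u, hu, rfl⟩
      have a1 := hψ' v hv u (Q.cell_subset_skel (by rw [he.1]; norm_num) hu)
      rw [he.2.2.1, segment_eq_image_lineMap] at hu
      obtain ⟨τ, hτ, rfl⟩ := hu
      have a2 := chord_close γ hv hx he hτ
      exact mem_thickening_iff.2 ⟨_, lineMap_mem hτ, by
        linarith [dist_triangle (ψ.toFun (lineMap x y τ)) (f (lineMap x y τ))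
          (lineMap (f x) (f y) τ)]⟩
    obtain ⟨-, b2, -, b4, -⟩ := hp v e hvV he.1 hve
    rw [ex] at b2 b4
    rw [hr] at b2
    refine ⟨fun z hz => ?_, p v e, b4.trans inter_subset_left, by linarith, fun z hz => ?_⟩
    · rcases hpts e he.1 z hz with h | ⟨k, hk, hke, h⟩
      · exact hth h.1
      · refine ((convex_segment (f x) (f y)).thickening _).segment_subset
          (self_subset_thickening (by linarith) _ ?_) (hth (hp k e hk he.1 hke).1) h
        rcases hend k hk e x y he hke with a | a <;> rw [a]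
        · exact left_mem_segment _ _ _
        · exact right_mem_segment _ _ _
    · rcases hpts e he.1 z hz with h | ⟨k, hk, hke, h⟩
      · have := h.2 v hvV
        rw [ex, hr] at this
        exact Or.inr (by linarith)
      · by_cases hkv : k = v
        · rw [hkv, ex] at h; exact Or.inl h
        · have := hnotW v hvV z fun hz' => disjoint_left.1 (hW k hk v hvV hkv)
            ((hp k e hk he.1 hke).2.2.2.1 h).2 hz'
          rw [ex, hr] at this
          exact Or.inr (by linarith)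
  · intro i hi e he hd z hz y hy
    rcases hpts e he z hz with h | ⟨k, hk, hke, h⟩
    · exact hfar0 i hi e he hd z h.1 y hy
    · have hk' := (hV k).1 hk
      have a1 := hray k hk e he hke z h
      have a2 := dist_triangle_left (f (xv k)) y z
      obtain ⟨e1, e2, e3, e4⟩ := eta_le γ hi
      obtain ⟨d1, d2, d3, d4⟩ := eta_le γ hk'.1
      rw [hr] at a1
      by_cases hsame : γ.s k ≠ γ.s i ∨ γ.M k ≠ γ.M i
      · have := γ.sep k hk'.1 i hi hsame _ (hcA k hk) y hy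
        linarith
      · push Not at hsame
        have := γ.far i hi e he hd (xv k) (hke (hxv k hk'.2 ▸ mem_singleton _)) y hy
        rw [div_eq_mul_inv] at this
        rw [hsame.1, hsame.2] at a1
        linarith
  · intro e x y he
    let T : E3 → Set E3 := fun a => {z | ∃ k ∈ V, xv k = a ∧ z ∈ segment ℝ (f (xv k)) (p k e)}
    have hT : ∀ a b, Wire Q e a b → μH[1] (T a) ≤ edist (f a) (f b) := by
      intro a b hab
      by_cases hk : ∃ k ∈ V, xv k = a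
      · obtain ⟨k, hk, hka⟩ := hk
        have hk' := (hV k).1 hk
        have hke : Q.cell k ⊆ Q.cell e := by
          rw [hxv k hk'.2, hka]; exact singleton_subset_iff.2 hab.left_mem
        have hsub : T a ⊆ segment ℝ (f (xv k)) (p k e) := by
          rintro z ⟨k', hk'', hka', hz⟩
          have : k' = k := by_contra fun hne =>
            hxne k k' hk'.2 ((hV k').1 hk'').2 hne (hka'.trans hka.symm)
          rwa [this] at hz
        refine (measure_mono hsub).trans ?_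
        rw [hausdorffMeasure_segment, edist_dist, edist_dist]
        refine ENNReal.ofReal_le_ofReal ?_
        have a1 := (hp k e hk he.1 hke).2.2.1
        have a2 := (chord_len γ hk'.1 (hka ▸ hxv k hk'.2) hab).1
        obtain ⟨d1, d2, d3, d4⟩ := eta_le γ hk'.1
        rw [hr, dist_comm] at a1
        rw [dist_comm] at a2
        linarith
      · have : T a = ∅ := eq_empty_of_forall_notMem fun z ⟨k, h1, h2, _⟩ => hk ⟨k, h1, h2⟩
        rw [this, measure_empty]; exact zero_le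
    have hsub : R e ⊆ R₀ e ∪ (T x ∪ T y) := by
      intro z hz
      rcases hpts e he.1 z hz with h | ⟨k, hk, hke, h⟩
      · exact Or.inl h.1
      · exact Or.inr ((hend k hk e x y he hke).imp (fun a => ⟨k, hk, a, h⟩) fun a => ⟨k, hk, a, h⟩)
    refine (measure_mono hsub).trans ((measure_union_le _ _).trans (add_le_add le_rfl
      ((measure_union_le _ _).trans ?_)))
    rw [two_mul]
    exact add_le_add (hT x y he) (edist_comm (f x) (f y) ▸ hT y x he.symm)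

end P073.STR
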