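import Vale.Agent.P073Z.STR.S1
import Vale.Agent.P073Z.STR.Box

/-!
# Straightening: levels and crossings at a good vertex
-/

open Set Metric Topology Filter MeasureTheory AffineMap
open scoped ENNReal NNReal

namespace P073.STR

variable {Q : RCx E3} {f : E3 → E3} {β : ℝ} (γ : Good Q f kap β)

theorem eta_le {i : Q.ι} (hi : i ∈ γ.G) :
    0 < γ.s i * (γ.M i)⁻¹ ^ 4 ∧ γ.s i * (γ.M i)⁻¹ ^ 4 ≤ γ.s i * (γ.M i)⁻¹ ∧
      γ.s i * (γ.M i)⁻¹ ≤ γ.s i ∧ γ.s i ≤ β := by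
  have hw := w_pos γ hi
  have hw1 := w_le γ hi
  have hs := (γ.pos i hi).1
  refine ⟨by positivity, mul_le_mul_of_nonneg_left ?_ hs.le, mul_le_of_le_one_right hs.le hw1,
    s_le γ hi⟩
  simpa using pow_le_pow_of_le_one hw.le hw1 (show 1 ≤ 4 by norm_num)

/-- the map is close to the chord -/
theorem chord_close {v e : Q.ι} {x y : E3} (hv : v ∈ γ.G) (hx : Q.cell v = {x})
    (he : Wire Q e x y) {τ : ℝ} (hτ : τ ∈ Icc (0:ℝ) 1) :
    dist (f (lineMap x y τ)) (lineMap (f x) (f y) τ) ≤ γ.s v * (γ.M v)⁻¹ ^ 4 / 10 ^ 6 := by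
  obtain ⟨-, -, h⟩ := γ.wire v hv e x y he.1 hx he.2.2.1
  have h1 := (eVariationOn.edist_le _ hτ (left_mem_Icc.2 zero_le_one)).trans h
  rw [kap_eq (γ.pos v hv).2.1, edist_le_ofReal (by linarith [(eta_le γ hv).1])] at h1
  simpa [dist_eq_norm] using h1

/-- a good level for the side `k` of the box at `v` -/
def LevOK (v : Q.ι) (x : E3) (k : Fin 3 × Bool) (t : ℝ) : Prop :=
  γ.s v * (γ.M v)⁻¹ / 20 ≤ bsg k.2 * (t - f x k.1) ∧
  bsg k.2 * (t - f x k.1) ≤ 2 * (γ.s v * (γ.M v)⁻¹ / 20) ∧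
  ∀ e y, Wire Q e x y → γ.s v * (γ.M v)⁻¹ ^ 4 / 10 ^ 6 < |t - f y k.1| ∧
    {p ∈ segment ℝ x y | f p k.1 = t}.encard ≤ 1 ∧
    (t ∉ uIcc (f x k.1) (f y k.1) → ∀ p ∈ segment ℝ x y, f p k.1 ≠ t)

theorem exists_levels (hL : LEV) (hQ : Q.Cvx) (hf : ContinuousOn f Q.carrier) {v : Q.ι} {x : E3}
    (hv : v ∈ γ.G) (hv0 : Q.dim v = 0) (hx : Q.cell v = {x}) (k : Fin 3 × Bool) :
    ∃ A : Set ℝ, MeasurableSet A ∧ volume A ≠ 0 ∧ ∀ t ∈ A, LevOK γ v x k t := by
  classical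
  have hfin : {e | Q.dim e = 1 ∧ Q.cell v ⊆ Q.cell e}.Finite :=
    (Q.finite_cofaces v).subset fun e he => he.2
  have hex : ∀ e, ∃ y, Q.dim e = 1 ∧ Q.cell v ⊆ Q.cell e → Wire Q e x y := by
    intro e
    by_cases he : Q.dim e = 1 ∧ Q.cell v ⊆ Q.cell e
    · obtain ⟨y, hy⟩ := exists_wire_at hQ hv0 hx he.1 (he.2 (hx ▸ mem_singleton x))
      exact ⟨y, fun _ => hy⟩
    · exact ⟨x, fun h => absurd h he⟩
  choose y hy using hex
  obtain ⟨e1, e2, e3, e4⟩ := eta_le γ hv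
  have hM := (γ.pos v hv).2.1
  set r := γ.s v * (γ.M v)⁻¹ / 20 with hr
  obtain ⟨A, h1, h2, h3, h4⟩ := hL hfin.toFinset (fun e τ => f (lineMap x (y e) τ) k.1)
    (a := f x k.1 + bsg k.2 * (3 / 2 * r) - r / 2) (b := f x k.1 + bsg k.2 * (3 / 2 * r) + r / 2)
    (κ := γ.s v * (γ.M v)⁻¹ ^ 4 / 10 ^ 6) (by linarith)
    (fun e he => by
      have hw := hy e (hfin.mem_toFinset.1 he)
      constructor
      · refine (continuous_apply k.1).comp_continuousOn (hf.comp (by fun_prop) fun τ hτ => ?_)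
        exact Q.cell_subset_carrier e (hw.2.2.1 ▸ lineMap_mem hτ)
      · obtain ⟨-, -, h⟩ := γ.wire v hv e x (y e) hw.1 hx hw.2.2.1
        rw [kap_eq hM] at h
        refine le_trans ?_ h
        have hl := ((LipschitzWith.eval (α := fun _ : Fin 3 => ℝ) k.1).lipschitzOnWith
          (s := univ)).comp_eVariationOn_le
          (g := fun t : ℝ => f (lineMap x (y e) t) - lineMap (f x) (f (y e)) t) (s := Icc 0 1)
          (mapsTo_univ _ _)
        rw [ENNReal.coe_one, one_mul] at hl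
        refine le_trans (le_of_eq ?_) hl
        congr 1
        ext τ
        simp [lineMap_apply])
    (by
      have hc : (hfin.toFinset.card : ℝ) ≤ γ.M v := by
        rw [← ncard_eq_toFinset_card _ hfin]; exact γ.deg v hv hv0
      have hw := w_pos γ hv
      have h5 : γ.M v * (γ.s v * (γ.M v)⁻¹ ^ 4) ≤ γ.s v * (γ.M v)⁻¹ := by
        have h6 : γ.M v * (γ.s v * (γ.M v)⁻¹ ^ 4) = γ.s v * (γ.M v)⁻¹ ^ 3 := by field_simp
        rw [h6]
        refine mul_le_mul_of_nonneg_left ?_ (γ.pos v hv).1.le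
        simpa using pow_le_pow_of_le_one hw.le (w_le γ hv) (show 1 ≤ 3 by norm_num)
      have h7 := mul_le_mul_of_nonneg_right hc e1.le
      linarith)
  refine ⟨A, h1, h2, fun t ht => ?_⟩
  obtain ⟨a1, a2⟩ := h3 ht
  have hb : r ≤ bsg k.2 * (t - f x k.1) ∧ bsg k.2 * (t - f x k.1) ≤ 2 * r := by
    rcases k with ⟨i, _ | _⟩ <;> simp only [bsg, Bool.false_eq_true, if_true, if_false] at a1 a2 ⊢ <;>
      constructor <;> linarith
  refine ⟨hb.1, hb.2, fun e y' hw => ?_⟩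
  have he : Q.dim e = 1 ∧ Q.cell v ⊆ Q.cell e := ⟨hw.1, hx ▸ singleton_subset_iff.2 hw.left_mem⟩
  have hyy : y' = y e := by
    rcases (hy e he).unique hw with h | h
    · exact h.2
    · exact absurd h.1 (hy e he).2.1
  subst hyy
  obtain ⟨-, b2, b3, b4⟩ := h4 t ht e (hfin.mem_toFinset.2 he)
  simp only [lineMap_apply_zero, lineMap_apply_one] at b2 b4
  refine ⟨b2, le_trans ?_ ((encard_image_le (lineMap x (y e)) _).trans b3), fun h p hp => ?_⟩
  · refine encard_le_encard fun p hp => ?_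
    obtain ⟨hp1, hp2⟩ := hp
    rw [segment_eq_image_lineMap] at hp1
    obtain ⟨τ, hτ, rfl⟩ := hp1
    exact ⟨τ, ⟨hτ, hp2⟩, rfl⟩
  · rw [segment_eq_image_lineMap] at hp
    obtain ⟨τ, hτ, rfl⟩ := hp
    exact b4 h τ hτ

theorem cross_at (hC : CROSS) {v e : Q.ι} {x y : E3} (hv : v ∈ γ.G) (hx : Q.cell v = {x})
    (he : Wire Q e x y) {t : Fin 3 × Bool → ℝ} (ht : ∀ k, LevOK γ v x k (t k)) {Y : Set E3}
    (ψ : ConHomeo (Q.skel 2) Y)
    (hc : ∀ k, cnt ψ.toFun x y {z | z k.1 = t k} ≤ cnt f x y {z | z k.1 = t k})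
    (hψ : ∀ p ∈ Q.skel 2, dist (ψ.toFun p) (f p) ≤ γ.s v * (γ.M v)⁻¹ ^ 4 / 10 ^ 6) :
    ∃ δ > (0:ℝ), ∀ u ∈ Ioo (1 - δ) (1 + δ), {z ∈ ψ.toFun '' Q.cell e |
      boxG (fun k => bsg k.2 * (t k - f x k.1)) (z - f x) = u}.ncard = 1 := by
  obtain ⟨e1, e2, e3, e4⟩ := eta_le γ hv
  have hsub : segment ℝ x y ⊆ Q.skel 2 := he.2.2.1 ▸ Q.cell_subset_skel (by rw [he.1]; norm_num)
  have hr : 0 < γ.s v * (γ.M v)⁻¹ / 20 := by linarith
  have hpos : ∀ k, 0 < bsg k.2 * (t k - f x k.1) := fun k => hr.trans_le (ht k).1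
  have hlev : ∀ k : Fin 3 × Bool, f x k.1 + bsg k.2 * (bsg k.2 * (t k - f x k.1)) = t k :=
    fun k => by rw [← mul_assoc, bsg_mul_self]; ring
  have hx1 := hψ x (hsub (left_mem_segment _ _ _))
  have hy1 := hψ y (hsub (right_mem_segment _ _ _))
  rw [he.2.2.1]
  refine hC hpos ⟨ψ.cont.mono hsub, ψ.conical.mono (Convex.conicalSet (convex_segment x y)) hsub⟩
    (ψ.injOn.mono hsub) ?_ ?_ fun k => ?_
  · have := boxG_le hr (fun k => (ht k).1) (ψ.toFun x - f x)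
    rw [← dist_eq_norm] at this
    by_contra hcon
    have := mul_le_mul_of_nonneg_left (not_lt.1 hcon) hr.le
    linarith
  · have h1 := le_boxG hpos (fun k => (ht k).2.1) (ψ.toFun y - f x)
    rw [← dist_eq_norm] at h1
    have h2 := (chord_len γ hv hx he).1
    have h3 := dist_triangle_left (f y) (f x) (ψ.toFun y)
    by_contra hcon
    have := mul_le_mul_of_nonneg_left (not_lt.1 hcon) (mul_pos two_pos hr).le
    linarith
  · obtain ⟨b1, b2, b3⟩ := (ht k).2.2 e y he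
    have hcnt : {p ∈ segment ℝ x y | ψ.toFun p k.1 = t k}.encard ≤
        {p ∈ segment ℝ x y | f p k.1 = t k}.encard := ENat.toENNReal_le.1 (hc k)
    rw [hlev]
    refine ⟨hcnt.trans b2, fun hle p hp hpt => ?_⟩
    have hnot : t k ∉ uIcc (f x k.1) (f y k.1) := by
      intro hin
      have h1 := (dist_le_pi_dist (ψ.toFun y) (f y) k.1).trans hy1
      rw [Real.dist_eq, abs_le] at h1
      have h2 := hpos k
      rw [lt_abs] at b1
      rw [mem_uIcc] at hin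
      rcases k with ⟨i, _ | _⟩ <;>
        simp only [bsg, Bool.false_eq_true, if_true, if_false] at hle h1 h2 b1 hin <;>
        rcases hin with hin | hin <;> rcases b1 with b1 | b1 <;> linarith [hin.1, hin.2, h1.1, h1.2]
    have h0 : {p ∈ segment ℝ x y | f p k.1 = t k} = ∅ :=
      eq_empty_of_forall_notMem fun p hp => b3 hnot p hp.1 hp.2
    rw [h0, encard_empty, nonpos_iff_eq_zero, encard_eq_zero] at hcnt
    exact (hcnt.subset ⟨hp, hpt⟩ : p ∈ (∅ : Set E3))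

/-- other vertices are far from a good vertex -/
theorem vertex_far (hO : IsOpen Q.carrier) (hQ : Q.Cvx) {v j : Q.ι} {x x' : E3} (hv : v ∈ γ.G)
    (hv0 : Q.dim v = 0) (hx : Q.cell v = {x}) (hj : Q.dim j = 0) (hx' : Q.cell j = {x'})
    (hne : x' ≠ x) : γ.s v * (γ.M v)⁻¹ ≤ dist (f x') (f x) := by
  obtain ⟨e, he, hxe⟩ := exists_edge_at Q hO hj hx'
  by_cases h : x ∈ Q.cell e
  · obtain ⟨y, hy⟩ := exists_wire_at hQ hv0 hx he h
    have hb : x' ∈ Q.bd e := Q.subset_bd_of_dim_lt (j := j) (hx' ▸ singleton_subset_iff.2 hxe)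
      (by omega) (hx' ▸ mem_singleton x')
    rw [hy.2.2.2] at hb
    rcases hb with hb | rfl
    · exact absurd hb hne
    · exact (eta_le γ hv).2.2.1.trans (chord_len γ hv hx hy).1
  · have hxv : x ∈ Q.cell v := hx ▸ mem_singleton x
    have := γ.far v hv e he (by rw [hx]; exact disjoint_singleton_right.2 h) x' hxe _
      ⟨x, hxv, γ.vert v hv hv0 hxv⟩
    rwa [div_eq_mul_inv] at this

end P073.STR
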